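import Vale.Agent.P216.H962.Rot

/-!
# Slants by families parametrised by the cube (P216, block B43)

`slT m F f₀ C = KV m (F^* C - (f₀ ∘ fst)^* C)` for a family `F : E × cube → E'` which is `f₀`
outside the cube of radius `1/8` (`IsFm`). Chain property, homotopy invariance, commutation of two
slants (`slT_comm`), slant by the diagonal of two families (`slT_diag`).
-/

open Set

namespace Vale.Agent.P216.H962

open Vale.Agent.P216.DV965 Vale.Agent.P216.AS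

variable {k : Type} [Field k] {E E' E'' E₁ : Type} {m : ℕ}

/-- The slant. -/
noncomputable def slT (m : ℕ) (F : E × (Fin m → ℝ) → E') (f₀ : E → E') : TC k E' →ₗ[k] TC k E :=
  KV m ∘ₗ (pT F - pT fun p => f₀ p.1)

theorem slT_apply (F : E × (Fin m → ℝ) → E') (f₀ : E → E') (C : TC k E') :
    slT m F f₀ C = KV m (pT F C - pT (fun p => f₀ p.1) C) := rfl

theorem slT_deg0 (hm : 1 ≤ m) (F : E × (Fin m → ℝ) → E') (f₀ : E → E') (C : TC k E') :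
    slT m F f₀ C 0 = 0 := KV_deg0 m hm _

theorem slT_pT (F : E × (Fin m → ℝ) → E') (f₀ : E → E') (g : E' → E'') (C : TC k E'') :
    slT m F f₀ (pT g C) = slT m (g ∘ F) (g ∘ f₀) C := rfl

theorem pT_slT (F : E' × (Fin m → ℝ) → E'') (f₀ : E' → E'') (g : E → E') (C : TC k E'') :
    pT g (slT m F f₀ C) = slT m (F ∘ Prod.map g id) (f₀ ∘ g) C := by
  rw [slT_apply, ← KV_pT]
  rfl

/-- Outside the small cube. -/
def Out (v : Fin m → ℝ) : Prop := ∃ i, 1 / 8 ≤ |v i - 1 / 2|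

theorem out_of_bJ {v : Fin m → ℝ} (h : v ∈ bJ m) : Out v := by
  obtain ⟨-, i, hi⟩ := h
  refine ⟨i, ?_⟩
  rcases hi with hi | hi <;> rw [hi] <;> norm_num

theorem zero_out (hm : 1 ≤ m) : Out (fun _ : Fin m => (0 : ℝ)) := ⟨⟨0, hm⟩, by norm_num⟩

theorem zero_mem_Bg : (fun _ : Fin m => (0 : ℝ)) ∈ Bg m := fun _ => ⟨by norm_num, by norm_num⟩

section Metric

variable [PseudoMetricSpace E] [PseudoMetricSpace E'] [PseudoMetricSpace E'']
  [PseudoMetricSpace E₁]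

/-- A family over the cube. -/
structure IsFm (A : Set E) (Y : Set E') (F : E × (Fin m → ℝ) → E') (f₀ : E → E') : Prop where
  um : UM (A ×ˢ Bg m) Y F
  out : ∀ x ∈ A, ∀ v ∈ Bg m, Out v → F (x, v) = f₀ x

variable {A : Set E} {Y : Set E'} {F : E × (Fin m → ℝ) → E'} {f₀ : E → E'}

theorem uM_const {B : Set E'} {b : E'} (hb : b ∈ B) : UM A B fun _ => b where
  maps := fun _ _ => hb
  uc := fun ε hε => ⟨1, one_pos, fun _ _ _ _ _ => by rwa [dist_self]⟩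

theorem IsFm.um0 (h : IsFm A Y F f₀) (hm : 1 ≤ m) : UM A Y f₀ := by
  have h1 : UM A (A ×ˢ Bg m) fun x => (x, fun _ : Fin m => (0 : ℝ)) :=
    (UM.id' le_rfl).pair (uM_const zero_mem_Bg)
  have h2 := h.um.comp h1
  have e : ∀ x ∈ A, F (x, fun _ => 0) = f₀ x := fun x hx => h.out x hx _ zero_mem_Bg (zero_out hm)
  exact ⟨fun x hx => e x hx ▸ h2.maps hx, fun ε hε => by
    obtain ⟨δ, hδ, h3⟩ := h2.uc ε hε
    exact ⟨δ, hδ, fun x hx y hy hxy => by rw [← e x hx, ← e y hy]; exact h3 x hx y hy hxy⟩⟩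

theorem IsFm.mono (h : IsFm A Y F f₀) {A' : Set E} (hA : A' ⊆ A) : IsFm A' Y F f₀ :=
  ⟨h.um.mono (prod_mono hA le_rfl), fun x hx => h.out x (hA hx)⟩

theorem IsFm.mono_right (h : IsFm A Y F f₀) {Y' : Set E'} (hY : Y ⊆ Y') : IsFm A Y' F f₀ :=
  ⟨h.um.mono_right hY, h.out⟩

theorem IsFm.comp {g : E' → E''} {Z : Set E''} (hg : UM Y Z g) (h : IsFm A Y F f₀) :
    IsFm A Z (g ∘ F) (g ∘ f₀) :=
  ⟨hg.comp h.um, fun x hx v hv ho => by
    change g _ = g _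
    rw [h.out x hx v hv ho]⟩

theorem IsFm.pre {A' : Set E₁} {g : E₁ → E} (hg : UM A' A g) (h : IsFm A Y F f₀) :
    IsFm A' Y (F ∘ Prod.map g id) (f₀ ∘ g) := by
  refine ⟨h.um.comp ?_, fun x hx v hv ho => h.out (g x) (hg.maps hx) v hv ho⟩
  exact (hg.comp (UM.fst' (A := A') fun p hp => hp.1)).pair
    (UM.snd' (A := Bg m) fun p hp => hp.2)

theorem IsFm.vT_bJ (h : IsFm A Y F f₀) (C : TC k E') :
    VT (A ×ˢ bJ m) (pT F C - pT (fun p => f₀ p.1) C) := by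
  intro n
  refine ⟨1, one_pos, fun x hx => ?_⟩
  change C n (F ∘ x) - C n ((fun p => f₀ p.1) ∘ x) = 0
  rw [sub_eq_zero]
  congr 1
  funext i
  have := hx.1 i
  exact h.out _ this.1 _ (Jc_sub_Bg m (bJ_sub m this.2)) (out_of_bJ this.2)

theorem IsFm.vT_sub (h : IsFm A Y F f₀) (hm : 1 ≤ m) {C : TC k E'} (hC : VT Y C) :
    VT (A ×ˢ Jc m) (pT F C - pT (fun p => f₀ p.1) C) := by
  refine (vT_pT (h.um.mono (prod_mono le_rfl (Jc_sub_Bg m))) hC).sub (vT_pT ?_ hC)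
  exact (h.um0 hm).comp (UM.fst' (A := A) fun p hp => hp.1)

theorem IsFm.slT_van (h : IsFm A Y F f₀) (hm : 1 ≤ m) {C : TC k E'} (hC : VT Y C) :
    VT A (slT m F f₀ C) := vT_KV m (h.vT_sub hm hC)

/-- The chain property. -/
theorem IsFm.dT_slT (h2 : (2 : k) ≠ 0) (h : IsFm A Y F f₀) (C : TC k E') :
    VT A (dT (slT m F f₀ C) - (-1 : k) ^ m • slT m F f₀ (dT C)) := by
  have := dT_KV h2 m (h.vT_bJ C)
  rwa [map_sub (dT (k := k)), dT_pT, dT_pT] at this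

/-- The slant of a cocycle is a cocycle. -/
theorem IsFm.cocyc (h2 : (2 : k) ≠ 0) (h : IsFm A Y F f₀) (hm : 1 ≤ m) {C : TC k E'}
    (hC : VT Y (dT C)) : VT A (dT (slT m F f₀ C)) := by
  have := (h.dT_slT h2 C).add ((h.slT_van hm hC).smul ((-1 : k) ^ m))
  rwa [sub_add_cancel] at this

theorem IsFm.coh (h2 : (2 : k) ≠ 0) (h : IsFm A Y F f₀) (hm : 1 ≤ m) {C C' : TC k E'}
    (hC : Coh Y C C') : Coh A (slT m F f₀ C) (slT m F f₀ C') := by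
  obtain ⟨g, -, hg⟩ := hC
  refine ⟨(-1 : k) ^ m • slT m F f₀ g, ?_, ?_⟩
  · rw [Pi.smul_apply, slT_deg0 hm, smul_zero]
  · have h1 := (h.slT_van hm hg).add ((h.dT_slT h2 g).smul (-(-1 : k) ^ m))
    convert h1 using 1
    rw [map_sub, map_sub, smul_sub, smul_smul, neg_mul, ← mul_pow, neg_one_mul, neg_neg, one_pow,
      map_smul, neg_smul, neg_smul, one_smul]
    abel

/-- **Homotopy invariance.** -/
theorem slT_htpy (h2 : (2 : k) ≠ 0) (hm : 1 ≤ m) {D : (E × (Fin m → ℝ)) × ℝ → E'}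
    {D₀ : E × ℝ → E'} (hD : UM ((A ×ˢ Jc m) ×ˢ Icc (0 : ℝ) 1) Y D)
    (h0 : ∀ x ∈ A, ∀ v ∈ bJ m, ∀ s ∈ Icc (0 : ℝ) 1, D ((x, v), s) = D₀ (x, s))
    {C : TC k E'} (hC : VT Y (dT C)) :
    Coh A (slT m (D ∘ jj 1) (D₀ ∘ jj 1) C) (slT m (D ∘ jj 0) (D₀ ∘ jj 0) C) := by
  set D' : (E × (Fin m → ℝ)) × ℝ → E' := fun p => D₀ (p.1.1, p.2) with hD'
  have hz : (fun _ : Fin m => (0 : ℝ)) ∈ bJ m :=
    ⟨fun _ => ⟨le_rfl, zero_le_one⟩, ⟨0, hm⟩, Or.inl rfl⟩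
  have hD₀ : UM ((A ×ˢ Jc m) ×ˢ Icc (0 : ℝ) 1) Y D' := by
    have h1 : UM ((A ×ˢ Jc m) ×ˢ Icc (0 : ℝ) 1) ((A ×ˢ Jc m) ×ˢ Icc (0 : ℝ) 1)
        fun p : (E × (Fin m → ℝ)) × ℝ => ((p.1.1, fun _ : Fin m => (0 : ℝ)), p.2) := by
      refine UM.of_dist_le (fun p hp => ⟨⟨hp.1.1, bJ_sub m hz⟩, hp.2⟩) fun p _ q _ => ?_
      simp only [Prod.dist_eq]
      refine max_le_max (max_le (le_max_left _ _) ?_) le_rfl
      rw [dist_self]
      exact le_max_of_le_left dist_nonneg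
    have h3 := hD.comp h1
    refine ⟨fun p hp => ?_, fun ε hε => ?_⟩
    · have := h3.maps hp
      simp only [Function.comp] at this
      rwa [h0 _ hp.1.1 _ hz _ hp.2] at this
    · obtain ⟨δ, hδ, h4⟩ := h3.uc ε hε
      refine ⟨δ, hδ, fun p hp q hq hpq => ?_⟩
      have := h4 p hp q hq hpq
      simp only [Function.comp] at this
      rwa [h0 _ hp.1.1 _ hz _ hp.2, h0 _ hq.1.1 _ hz _ hq.2] at this
  refine coh_KV h2 hm ⟨KT (pT D C - pT D' C), vT_KT ?_, ?_⟩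
  · intro n
    refine ⟨1, one_pos, fun x hx => ?_⟩
    change C n (D ∘ x) - C n (D' ∘ x) = 0
    rw [sub_eq_zero]
    congr 1
    funext i
    have := hx.1 i
    exact h0 _ this.1.1 _ this.1.2 _ this.2
  · have e := dT_KT h2 (pT D C - pT D' C)
    have e1 : pT (D ∘ jj 1) C - pT (fun p => (D₀ ∘ jj 1) p.1) C -
        (pT (D ∘ jj 0) C - pT (fun p => (D₀ ∘ jj 0) p.1) C) =
        pT (jj 1) (pT D C - pT D' C) - pT (jj 0) (pT D C - pT D' C) := by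
      rw [map_sub (pT (jj 1)), map_sub (pT (jj 0)), pT_pT, pT_pT, pT_pT, pT_pT]
      rfl
    change VT (A ×ˢ Jc m) (pT (D ∘ jj 1) C - pT (fun p => (D₀ ∘ jj 1) p.1) C -
        (pT (D ∘ jj 0) C - pT (fun p => (D₀ ∘ jj 0) p.1) C) - dT (KT (pT D C - pT D' C)))
    rw [e1, ← e, add_sub_cancel_left]
    refine vT_KT ?_
    rw [map_sub, dT_pT, dT_pT]
    exact (vT_pT hD hC).sub (vT_pT hD₀ hC)

omit [PseudoMetricSpace E'] in
theorem slT_congr {F' : E × (Fin m → ℝ) → E'} {f₀' : E → E'}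
    (hF : ∀ x ∈ A, ∀ v ∈ Jc m, F (x, v) = F' (x, v)) (hf : ∀ x ∈ A, f₀ x = f₀' x) (C : TC k E') :
    VT A (slT m F f₀ C - slT m F' f₀' C) := by
  rw [slT_apply, slT_apply, ← map_sub]
  refine vT_KV m fun n => ⟨1, one_pos, fun x hx => ?_⟩
  change C n (F ∘ x) - C n ((fun p => f₀ p.1) ∘ x) - (C n (F' ∘ x) - C n ((fun p => f₀' p.1) ∘ x)) = 0
  have e1 : F ∘ x = F' ∘ x := funext fun i => hF _ (hx.1 i).1 _ (hx.1 i).2
  have e2 : (fun p : E × (Fin m → ℝ) => f₀ p.1) ∘ x = (fun p => f₀' p.1) ∘ x :=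
    funext fun i => hf _ (hx.1 i).1
  rw [e1, e2, sub_self]

/-! ### Two families -/

variable {A' : Set E'} {A₁ : Set E₁} {Z : Set E''}

/-- The double difference. -/
def dd (a b c d : E → E') : TC k E' →ₗ[k] TC k E := pT a - pT b - (pT c - pT d)

omit [PseudoMetricSpace E] [PseudoMetricSpace E'] [PseudoMetricSpace E''] in
theorem slT_slT (F : E × (Fin m → ℝ) → E') (f₀ : E → E') (G : E' × (Fin m → ℝ) → E'')
    (g₀ : E' → E'') (C : TC k E'') :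
    slT m F f₀ (slT m G g₀ C) = KV m (KV m (dd (fun p => G (F p.1, p.2)) (fun p => g₀ (F p.1))
      (fun p => G (f₀ p.1.1, p.2)) (fun p => g₀ (f₀ p.1.1)) C)) := by
  rw [slT_apply, slT_apply, ← KV_pT, ← KV_pT, ← map_sub]
  rfl

/-- The point is `Out` uniformly. -/
theorem out_near {v w : Fin m → ℝ} {i : Fin m} (h : 17 / 100 ≤ |v i - 1 / 2|)
    (hd : dist v w < 1 / 100) : Out w := by
  refine ⟨i, ?_⟩
  have h1 := (dist_le_pi_dist v w i).trans_lt hd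
  rw [Real.dist_eq] at h1
  have h2 : |v i - 1 / 2| ≤ |w i - 1 / 2| + |v i - w i| := by
    have : v i - 1 / 2 = (w i - 1 / 2) + (v i - w i) := by ring
    rw [this]
    exact abs_add_le _ _
  linarith

theorem sg_out {n : ℕ} {x : Fin n → (E × (Fin m → ℝ)) × (Fin m → ℝ)}
    (hx : Sm (Sg A m) (1 / 100) x) : (∀ i, Out (x i).1.2) ∨ ∀ i, Out (x i).2 := by
  cases n with
  | zero => exact Or.inl fun i => i.elim0
  | succ n =>
    obtain ⟨-, i, hi⟩ := hx.1 0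
    have h1 : 17 / 100 ≤ |(x 0).1.2 i - 1 / 2| ∨ 17 / 100 ≤ |(x 0).2 i - 1 / 2| := by
      by_contra h
      push Not at h
      have h3 := abs_lt.1 h.1
      have h4 := abs_lt.1 h.2
      nlinarith [h3.1, h3.2, h4.1, h4.2]
    have h5 : ∀ j, dist (x 0).1.2 (x j).1.2 < 1 / 100 ∧ dist (x 0).2 (x j).2 < 1 / 100 := by
      intro j
      have := hx.2 0 j
      simp only [Prod.dist_eq, max_lt_iff] at this
      exact ⟨this.1.2, this.2⟩
    rcases h1 with h1 | h1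
    · exact Or.inl fun j => out_near h1 (h5 j).1
    · exact Or.inr fun j => out_near h1 (h5 j).2

/-- **Commutation of two slants.** -/
theorem slT_comm (h2 : (2 : k) ≠ 0) (hm : 1 ≤ m)
    {L : E × (Fin m → ℝ) → E'} {l₀ : E → E'} {R : E' × (Fin m → ℝ) → E''} {r₀ : E' → E''}
    {R' : E × (Fin m → ℝ) → E₁} {r₀' : E → E₁} {L' : E₁ × (Fin m → ℝ) → E''} {l₀' : E₁ → E''}
    (hL : IsFm A A' L l₀) (hR : IsFm A' Z R r₀) (hR' : IsFm A A₁ R' r₀')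
    (hL' : IsFm A₁ Z L' l₀')
    (hc : ∀ x ∈ A, ∀ v ∈ Bg m, ∀ w ∈ Bg m, L' (R' (x, w), v) = R (L (x, v), w))
    {C : TC k E''} (hC : VT Z (dT C)) :
    Coh A (slT m R' r₀' (slT m L' l₀' C)) ((-1 : k) ^ m • slT m L l₀ (slT m R r₀ C)) := by
  rw [slT_slT, slT_slT]
  set a : (E × (Fin m → ℝ)) × (Fin m → ℝ) → E'' := fun p => R (L p.1, p.2)
  set b : (E × (Fin m → ℝ)) × (Fin m → ℝ) → E'' := fun p => r₀ (L p.1)
  set c : (E × (Fin m → ℝ)) × (Fin m → ℝ) → E'' := fun p => R (l₀ p.1.1, p.2)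
  set d : (E × (Fin m → ℝ)) × (Fin m → ℝ) → E'' := fun p => r₀ (l₀ p.1.1)
  set e : TC k ((E × (Fin m → ℝ)) × (Fin m → ℝ)) := dd a b c d C with he
  have f1 : UM ((A ×ˢ Bg m) ×ˢ Bg m) (A ×ˢ Bg m)
      (Prod.fst : (E × (Fin m → ℝ)) × (Fin m → ℝ) → _) := UM.fst' fun p hp => hp.1
  have f2 : UM ((A ×ˢ Bg m) ×ˢ Bg m) (Bg m)
      (Prod.snd : (E × (Fin m → ℝ)) × (Fin m → ℝ) → _) := UM.snd' fun p hp => hp.2
  have f3 : UM (A ×ˢ Bg m) A (Prod.fst : E × (Fin m → ℝ) → _) := UM.fst' fun p hp => hp.1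
  have ha : UM ((A ×ˢ Bg m) ×ˢ Bg m) Z a := hR.um.comp ((hL.um.comp f1).pair f2)
  have hb : UM ((A ×ˢ Bg m) ×ˢ Bg m) Z b := (hR.um0 hm).comp (hL.um.comp f1)
  have hc' : UM ((A ×ˢ Bg m) ×ˢ Bg m) Z c :=
    hR.um.comp ((((hL.um0 hm).comp f3).comp f1).pair f2)
  have hd : UM ((A ×ˢ Bg m) ×ˢ Bg m) Z d := ((hR.um0 hm).comp (hL.um0 hm)).comp (f3.comp f1)
  have g1 : VT ((A ×ˢ Bg m) ×ˢ Bg m) (dT e) := by
    have : dT e = pT a (dT C) - pT b (dT C) - (pT c (dT C) - pT d (dT C)) := by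
      rw [he, dd]
      simp only [LinearMap.sub_apply, map_sub, dT_pT]
    rw [this]
    exact ((vT_pT ha hC).sub (vT_pT hb hC)).sub ((vT_pT hc' hC).sub (vT_pT hd hC))
  have g2 : VT (Sg A m) e := by
    intro n
    refine ⟨1 / 100, by norm_num, fun x hx => ?_⟩
    change C n (a ∘ x) - C n (b ∘ x) - (C n (c ∘ x) - C n (d ∘ x)) = 0
    rcases sg_out hx with ho | ho
    · have e1 : a ∘ x = c ∘ x := funext fun i => by
        have h3 := (hx.1 i).1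
        change R (L (x i).1, (x i).2) = R (l₀ (x i).1.1, (x i).2)
        rw [show L (x i).1 = l₀ (x i).1.1 from hL.out _ h3.1.1 _ h3.1.2 (ho i)]
      have e2 : b ∘ x = d ∘ x := funext fun i => by
        have h3 := (hx.1 i).1
        change r₀ (L (x i).1) = r₀ (l₀ (x i).1.1)
        rw [show L (x i).1 = l₀ (x i).1.1 from hL.out _ h3.1.1 _ h3.1.2 (ho i)]
      rw [e1, e2, sub_self]
    · have e1 : a ∘ x = b ∘ x := funext fun i => by
        have h3 := (hx.1 i).1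
        exact hR.out _ (hL.um.maps h3.1) _ h3.2 (ho i)
      have e2 : c ∘ x = d ∘ x := funext fun i => by
        have h3 := (hx.1 i).1
        exact hR.out _ ((hL.um0 hm).maps h3.1.1) _ h3.2 (ho i)
      rw [e1, e2, sub_self, sub_self, sub_self]
  have g3 := rot h2 hm g1 g2
  refine Coh.trans (coh_of_vT ?_) g3
  rw [← map_sub, ← map_sub]
  refine vT_KV m (vT_KV m fun n => ⟨1, one_pos, fun x hx => ?_⟩)
  have h4 : ∀ i, (x i).1.1 ∈ A ∧ (x i).1.2 ∈ Bg m ∧ (x i).2 ∈ Bg m := fun i =>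
    ⟨(hx.1 i).1.1, Jc_sub_Bg m (hx.1 i).1.2, Jc_sub_Bg m (hx.1 i).2⟩
  have hz : (fun _ : Fin m => (0 : ℝ)) ∈ Bg m := zero_mem_Bg
  have ho := zero_out hm
  -- the four equalities
  have q1 : ∀ y ∈ A, l₀ y = L (y, fun _ => 0) := fun y hy => (hL.out y hy _ hz ho).symm
  have q2 : ∀ y ∈ A, r₀' y = R' (y, fun _ => 0) := fun y hy => (hR'.out y hy _ hz ho).symm
  have q3 : ∀ y ∈ A', r₀ y = R (y, fun _ => 0) := fun y hy => (hR.out y hy _ hz ho).symm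
  have q4 : ∀ y ∈ A₁, l₀' y = L' (y, fun _ => 0) := fun y hy => (hL'.out y hy _ hz ho).symm
  have e1 : (fun p => L' (R' p.1, p.2)) ∘ x = a ∘ exch ∘ x := funext fun i =>
    hc _ (h4 i).1 _ (h4 i).2.2 _ (h4 i).2.1
  have e2 : (fun p => l₀' (R' p.1)) ∘ x = c ∘ exch ∘ x := funext fun i => by
    change l₀' (R' (x i).1) = R (l₀ (x i).1.1, (x i).1.2)
    rw [q4 (R' (x i).1) (hR'.um.maps ⟨(h4 i).1, (h4 i).2.1⟩), q1 _ (h4 i).1]
    exact hc _ (h4 i).1 _ hz _ (h4 i).2.1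
  have e3 : (fun p => L' (r₀' p.1.1, p.2)) ∘ x = b ∘ exch ∘ x := funext fun i => by
    change L' (r₀' (x i).1.1, (x i).2) = r₀ (L ((x i).1.1, (x i).2))
    rw [q3 (L ((x i).1.1, (x i).2)) (hL.um.maps ⟨(h4 i).1, (h4 i).2.2⟩), q2 _ (h4 i).1]
    exact hc _ (h4 i).1 _ (h4 i).2.2 _ hz
  have e4 : (fun p => l₀' (r₀' p.1.1)) ∘ x = d ∘ exch ∘ x := funext fun i => by
    change l₀' (r₀' (x i).1.1) = r₀ (l₀ (x i).1.1)
    rw [q4 _ ((hR'.um0 hm).maps (h4 i).1), q2 _ (h4 i).1, q3 _ ((hL.um0 hm).maps (h4 i).1),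
      q1 _ (h4 i).1]
    exact hc _ (h4 i).1 _ hz _ hz
  change C n ((fun p => L' (R' p.1, p.2)) ∘ x) - C n ((fun p => l₀' (R' p.1)) ∘ x) -
    (C n ((fun p => L' (r₀' p.1.1, p.2)) ∘ x) - C n ((fun p => l₀' (r₀' p.1.1)) ∘ x)) -
    (C n (a ∘ exch ∘ x) - C n (b ∘ exch ∘ x) - (C n (c ∘ exch ∘ x) - C n (d ∘ exch ∘ x))) = 0
  rw [e1, e2, e3, e4]
  ring

end Metric

end Vale.Agent.P216.H962
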