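import Vale.Agent.P216.H962.Diag
import Vale.Agent.P216.H901.Sp

/-!
# Slants on cohomology (P216, block B43)

`Sl h2 hm h q : H^{q+m}(Y) → H^q(A)` for a family `h : IsFm A Y F f₀` parametrised by the cube.
-/

open Set

namespace Vale.Agent.P216.H962

open Vale.Agent.P216.DV965 Vale.Agent.P216.AS Vale.Agent.P216.H901

variable {k : Type} [Field k] {E E' E'' E₁ : Type} {m : ℕ}

/-! ### Cochains of one arity -/

/-- The total cochain with one component. -/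
def sgl (n : ℕ) (c : (Fin n → E) → k) : TC k E := Pi.single n c

theorem sgl_same (n : ℕ) (c : (Fin n → E) → k) : sgl n c n = c :=
  Pi.single_eq_same (M := fun n => (Fin n → E) → k) n c

theorem sgl_ne {n a : ℕ} (h : a ≠ n) (c : (Fin n → E) → k) : sgl n c a = 0 :=
  Pi.single_eq_of_ne (M := fun n => (Fin n → E) → k) h c

theorem sgl_add (n : ℕ) (c c' : (Fin n → E) → k) : sgl n (c + c') = sgl n c + sgl n c' :=
  Pi.single_add (f := fun n => (Fin n → E) → k) n c c'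

theorem sgl_smul (n : ℕ) (a : k) (c : (Fin n → E) → k) : sgl n (a • c) = a • sgl n c :=
  Pi.single_smul (f := fun n => (Fin n → E) → k) n a c

theorem sgl_sub (n : ℕ) (c c' : (Fin n → E) → k) : sgl n (c - c') = sgl n c - sgl n c' :=
  Pi.single_sub (f := fun n => (Fin n → E) → k) n c c'

theorem dT_sgl (n : ℕ) (c : (Fin n → E) → k) : dT (sgl n c) = sgl (n + 1) (P265.AS.d c) := by
  funext j
  cases j with
  | zero => rw [dT_zero, sgl_ne (by omega)]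
  | succ j =>
    rw [dT_succ]
    by_cases h : j = n
    · subst h
      rw [sgl_same, sgl_same]
    · rw [sgl_ne h, sgl_ne (by omega), P265.AS.d_zero]

theorem pT_sgl (f : E → E') (n : ℕ) (c : (Fin n → E') → k) :
    pT f (sgl n c) = sgl n (P265.AS.pb f c) := by
  funext j
  change P265.AS.pb f (sgl n c j) = _
  by_cases h : j = n
  · subst h
    rw [sgl_same, sgl_same]
  · rw [sgl_ne h, sgl_ne h, map_zero]

/-- The components of `KV m C`. -/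
theorem KV_congr_deg (m : ℕ) {C C' : TC k (E × (Fin m → ℝ))} {n : ℕ} (h : C (n + m) = C' (n + m)) :
    KV m C n = KV m C' n := by
  induction m with
  | zero =>
    rw [KV_zero, KV_zero]
    change P265.AS.pb nlE (C n) = P265.AS.pb nlE (C' n)
    rw [show C n = C' n from h]
  | succ m ih =>
    rw [KV_succ, KV_succ]
    refine ih ?_
    rw [KT_apply, KT_apply]
    change K1 k _ (n + m) (P265.AS.pb snE (C (n + m + 1))) =
      K1 k _ (n + m) (P265.AS.pb snE (C' (n + m + 1)))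
    rw [show C (n + m + 1) = C' (n + m + 1) from h]

theorem slT_congr_deg {F : E × (Fin m → ℝ) → E'} {f₀ : E → E'} {C C' : TC k E'} {n : ℕ}
    (h : C (n + m) = C' (n + m)) : slT m F f₀ C n = slT m F f₀ C' n := by
  rw [slT_apply, slT_apply]
  refine KV_congr_deg m ?_
  change P265.AS.pb F (C (n + m)) - P265.AS.pb _ (C (n + m)) =
    P265.AS.pb F (C' (n + m)) - P265.AS.pb _ (C' (n + m))
  rw [h]

theorem slT_sgl (F : E × (Fin m → ℝ) → E') (f₀ : E → E') (n : ℕ) (c : (Fin (n + m) → E') → k) :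
    slT m F f₀ (sgl (n + m) c) = sgl n (slT m F f₀ (sgl (n + m) c) n) := by
  funext a
  by_cases h : a = n
  · subst h
    rw [sgl_same]
  · rw [sgl_ne h]
    have h1 : slT m F f₀ (sgl (n + m) c) a = slT m F f₀ (0 : TC k E') a :=
      slT_congr_deg (by rw [sgl_ne (by omega)]; rfl)
    rw [h1, map_zero]
    rfl

section Metric

variable [PseudoMetricSpace E] [PseudoMetricSpace E'] [PseudoMetricSpace E'']
  [PseudoMetricSpace E₁]

theorem vT_sgl {A : Set E} {n : ℕ} {c : (Fin n → E) → k} : VT A (sgl n c) ↔ Van A c := by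
  constructor
  · intro h
    have := h n
    rwa [sgl_same] at this
  · intro h a
    by_cases ha : a = n
    · subst ha
      rwa [sgl_same]
    · rw [sgl_ne ha]
      exact van_zero

theorem mem_Zc' {A : Set E} {q : ℕ} {c : (Fin (q + 1) → E) → k} :
    c ∈ Zc (Cc (tr E) (on k) A) (Zr (tr E) (on k) A A) q ↔ Van A (P265.AS.d c) := by
  rw [mem_Zc_abs]
  exact ⟨fun h => h.2, fun h => ⟨fun i => i.elim, h⟩⟩

/-- The class of the component of degree `q` of a total cocycle. -/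
def cl (A : Set E) (q : ℕ) (C : TC k E) (hC : VT A (dT C)) : Ha (tr E) (on k) A q :=
  H.mk (C (q + 1)) (mem_Zc'.2 (hC (q + 2)))

/-- Cohomologous total cocycles. -/
theorem cl_eq {A : Set E} {q : ℕ} {C C' : TC k E} (hC : VT A (dT C)) (hC' : VT A (dT C'))
    (h : Coh A C C') : cl A q C hC = cl A q C' hC' := by
  obtain ⟨g, hg0, hg⟩ := h
  refine H.mk_eq_mk.2 ?_
  have h1 := hg (q + 1)
  cases q with
  | zero =>
    rw [mem_Bc_zero]
    refine ⟨fun i => i.elim, ?_⟩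
    have e : (C - C' - dT g) 1 = C 1 - C' 1 := by
      change C 1 - C' 1 - P265.AS.d (g 0) = _
      rw [hg0, P265.AS.d_zero, sub_zero]
    rwa [e] at h1
  | succ q => exact mem_Bc_succ.2 ⟨g (q + 1), fun i => i.elim, fun i => i.elim, h1⟩

theorem cl_add {A : Set E} {q : ℕ} {C C' : TC k E} (hC : VT A (dT C)) (hC' : VT A (dT C'))
    (h : VT A (dT (C + C'))) : cl A q (C + C') h = cl A q C hC + cl A q C' hC' := rfl

theorem cl_smul {A : Set E} {q : ℕ} (a : k) {C : TC k E} (hC : VT A (dT C))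
    (h : VT A (dT (a • C))) : cl A q (a • C) h = a • cl A q C hC := rfl

variable {A : Set E} {Y : Set E'} {F : E × (Fin m → ℝ) → E'} {f₀ : E → E'}

theorem vT_dT_sgl {q : ℕ} {c : (Fin (q + 1) → E) → k}
    (hc : c ∈ Zc (Cc (tr E) (on k) A) (Zr (tr E) (on k) A A) q) : VT A (dT (sgl (q + 1) c)) := by
  rw [dT_sgl, vT_sgl]
  exact mem_Zc'.1 hc

/-- The slant of cochains of degree `q + m`. -/
noncomputable def slC (m : ℕ) (F : E × (Fin m → ℝ) → E') (f₀ : E → E') (q : ℕ) :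
    ((Fin (q + m + 1) → E') → k) →ₗ[k] ((Fin (q + 1) → E) → k) where
  toFun c := slT m F f₀ (sgl (q + m + 1) c) (q + 1)
  map_add' c c' := by
    rw [sgl_add, map_add]
    rfl
  map_smul' a c := by
    rw [sgl_smul, map_smul]
    rfl

omit [PseudoMetricSpace E] [PseudoMetricSpace E'] in
theorem slC_apply (q : ℕ) (c : (Fin (q + m + 1) → E') → k) :
    slC m F f₀ q c = slT m F f₀ (sgl (q + m + 1) c) (q + 1) := rfl

omit [PseudoMetricSpace E] [PseudoMetricSpace E'] in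
theorem slT_sgl' (q : ℕ) (c : (Fin (q + m + 1) → E') → k) :
    slT m F f₀ (sgl (q + m + 1) c) = sgl (q + 1) (slC m F f₀ q c) := by
  funext a
  by_cases h : a = q + 1
  · subst h
    rw [sgl_same]
    rfl
  · rw [sgl_ne h]
    have h1 : slT m F f₀ (sgl (q + m + 1) c) a = slT m F f₀ (0 : TC k E') a :=
      slT_congr_deg (by rw [sgl_ne (by omega)]; rfl)
    rw [h1, map_zero]
    rfl

theorem slC_mem (h2 : (2 : k) ≠ 0) (hm : 1 ≤ m) (h : IsFm A Y F f₀) {q : ℕ}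
    {c : (Fin (q + m + 1) → E') → k}
    (hc : c ∈ Zc (Cc (tr E') (on k) Y) (Zr (tr E') (on k) Y Y) (q + m)) :
    slC m F f₀ q c ∈ Zc (Cc (tr E) (on k) A) (Zr (tr E) (on k) A A) q :=
  mem_Zc'.2 (h.cocyc h2 hm (vT_dT_sgl hc) (q + 2))

theorem slC_memB (h2 : (2 : k) ≠ 0) (hm : 1 ≤ m) (h : IsFm A Y F f₀) {q : ℕ}
    {c : (Fin (q + m + 1) → E') → k}
    (hc : c ∈ Bc (Cc (tr E') (on k) Y) (Zr (tr E') (on k) Y Y) (q + m)) :
    slC m F f₀ q c ∈ Bc (Cc (tr E) (on k) A) (Zr (tr E) (on k) A A) q := by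
  -- `c` is cohomologous to `0`
  have h1 : Coh Y (sgl (q + m + 1) c) 0 := by
    obtain ⟨l, rfl⟩ : ∃ l, m = l + 1 := ⟨m - 1, by omega⟩
    obtain ⟨y, -, -, hy⟩ := mem_Bc_succ.1 hc
    refine ⟨sgl (q + l + 1) y, sgl_ne (by omega) y, ?_⟩
    rw [sub_zero, dT_sgl]
    change VT Y (sgl (q + (l + 1) + 1) c - sgl (q + (l + 1) + 1) (P265.AS.d y))
    rw [← sgl_sub, vT_sgl]
    exact hy
  obtain ⟨g, hg0, hg⟩ := h.coh h2 hm h1
  rw [map_zero, sub_zero] at hg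
  have h3 := hg (q + 1)
  cases q with
  | zero =>
    rw [mem_Bc_zero]
    refine ⟨fun i => i.elim, ?_⟩
    have e : (slT m F f₀ (sgl (0 + m + 1) c) - dT g) 1 = slC m F f₀ 0 c := by
      change slT m F f₀ (sgl (0 + m + 1) c) 1 - P265.AS.d (g 0) = _
      rw [hg0, P265.AS.d_zero, sub_zero]
      rfl
    rwa [e] at h3
  | succ q => exact mem_Bc_succ.2 ⟨g (q + 1), fun i => i.elim, fun i => i.elim, h3⟩

/-- **The slant on cohomology.** -/
noncomputable def Sl (h2 : (2 : k) ≠ 0) (hm : 1 ≤ m) (h : IsFm A Y F f₀) (q : ℕ) :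
    Ha (tr E') (on k) Y (q + m) →ₗ[k] Ha (tr E) (on k) A q :=
  H.lift (H.mkL _ _ q ∘ₗ (slC m F f₀ q).restrict fun _ hx => slC_mem h2 hm h hx) fun x hx hB => by
    rw [LinearMap.comp_apply, H.mkL_apply, H.mk_eq_zero]
    exact slC_memB h2 hm h hB

theorem Sl_mk (h2 : (2 : k) ≠ 0) (hm : 1 ≤ m) (h : IsFm A Y F f₀) (q : ℕ)
    {c : (Fin (q + m + 1) → E') → k}
    (hc : c ∈ Zc (Cc (tr E') (on k) Y) (Zr (tr E') (on k) Y Y) (q + m)) :
    Sl h2 hm h q (H.mk c hc) = H.mk (slC m F f₀ q c) (slC_mem h2 hm h hc) := rfl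

theorem Sl_mk' (h2 : (2 : k) ≠ 0) (hm : 1 ≤ m) (h : IsFm A Y F f₀) (q : ℕ)
    {c : (Fin (q + m + 1) → E') → k}
    (hc : c ∈ Zc (Cc (tr E') (on k) Y) (Zr (tr E') (on k) Y Y) (q + m)) :
    Sl h2 hm h q (H.mk c hc) = cl A q (slT m F f₀ (sgl (q + m + 1) c))
      (h.cocyc h2 hm (vT_dT_sgl hc)) := rfl

/-- Equality of classes from `Coh`. -/
theorem mk_eq_of_coh {q : ℕ} {C C' : TC k E} (h : Coh A C C')
    (hc : C (q + 1) ∈ Zc (Cc (tr E) (on k) A) (Zr (tr E) (on k) A A) q)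
    (hc' : C' (q + 1) ∈ Zc (Cc (tr E) (on k) A) (Zr (tr E) (on k) A A) q) :
    (H.mk (C (q + 1)) hc : Ha (tr E) (on k) A q) = H.mk (C' (q + 1)) hc' := by
  obtain ⟨g, hg0, hg⟩ := h
  refine H.mk_eq_mk.2 ?_
  have h1 := hg (q + 1)
  cases q with
  | zero =>
    rw [mem_Bc_zero]
    refine ⟨fun i => i.elim, ?_⟩
    have e : (C - C' - dT g) 1 = C 1 - C' 1 := by
      change C 1 - C' 1 - P265.AS.d (g 0) = _
      rw [hg0, P265.AS.d_zero, sub_zero]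
    rwa [e] at h1
  | succ q => exact mem_Bc_succ.2 ⟨g (q + 1), fun i => i.elim, fun i => i.elim, h1⟩

theorem mk_eq_of_coh' {q : ℕ} {C C' : TC k E} (h : Coh A C C') {c c' : (Fin (q + 1) → E) → k}
    (e : C (q + 1) = c) (e' : C' (q + 1) = c')
    (hc : c ∈ Zc (Cc (tr E) (on k) A) (Zr (tr E) (on k) A A) q)
    (hc' : c' ∈ Zc (Cc (tr E) (on k) A) (Zr (tr E) (on k) A A) q) :
    (H.mk c hc : Ha (tr E) (on k) A q) = H.mk c' hc' := by
  subst e e'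
  exact mk_eq_of_coh h hc hc'

/-- Slants of the same class by families with cohomologous slants. -/
theorem Sl_eq (h2 : (2 : k) ≠ 0) (hm : 1 ≤ m) {F' : E × (Fin m → ℝ) → E'} {f₀' : E → E'}
    (h : IsFm A Y F f₀) (h' : IsFm A Y F' f₀')
    (hc : ∀ C : TC k E', VT Y (dT C) → Coh A (slT m F f₀ C) (slT m F' f₀' C)) (q : ℕ) :
    (Sl h2 hm h q : Ha (tr E') (on k) Y (q + m) →ₗ[k] Ha (tr E) (on k) A q) = Sl h2 hm h' q := by
  refine H.hom_ext fun c hc' => ?_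
  exact mk_eq_of_coh (hc _ (vT_dT_sgl hc')) _ _

theorem Sl_congr (h2 : (2 : k) ≠ 0) (hm : 1 ≤ m) {F' : E × (Fin m → ℝ) → E'} {f₀' : E → E'}
    (h : IsFm A Y F f₀) (h' : IsFm A Y F' f₀') (hF : ∀ x ∈ A, ∀ v ∈ Jc m, F (x, v) = F' (x, v))
    (hf : ∀ x ∈ A, f₀ x = f₀' x) (q : ℕ) :
    (Sl h2 hm h q : Ha (tr E') (on k) Y (q + m) →ₗ[k] Ha (tr E) (on k) A q) = Sl h2 hm h' q :=
  Sl_eq h2 hm h h' (fun C _ => coh_of_vT (slT_congr hF hf C)) q

/-- Slant of a pullback. -/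
theorem Sl_pull (h2 : (2 : k) ≠ 0) (hm : 1 ≤ m) (h : IsFm A Y F f₀) {Z : Set E''} {g : E' → E''}
    (hg : IsMap (tr E') (tr E'') Y Z g) {G : E × (Fin m → ℝ) → E''} {g₀ : E → E''}
    (h' : IsFm A Z G g₀) (e : ∀ x ∈ A, ∀ v ∈ Jc m, G (x, v) = g (F (x, v)))
    (e0 : ∀ x ∈ A, g₀ x = g (f₀ x)) (q : ℕ) (x : Ha (tr E'') (on k) Z (q + m)) :
    Sl h2 hm h q (pull (on k) hg (q + m) x) = Sl h2 hm h' q x := by
  obtain ⟨c, hc, rfl⟩ := H.exists_mk x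
  have e1 : slT m F f₀ (sgl (q + m + 1) (pbK k g (q + m) c)) =
      slT m (g ∘ F) (g ∘ f₀) (sgl (q + m + 1) c) := by
    rw [← slT_pT, pT_sgl]
    rfl
  rw [pull_mk]
  have e2 : (Sl h2 hm h q) (H.mk (pbK k g (q + m) c) ((hg.isMor_Cc le_rfl hg.mapsX).mapZ hc)) =
      H.mk (slT m (g ∘ F) (g ∘ f₀) (sgl (q + m + 1) c) (q + 1))
        (by rw [← e1]; exact slC_mem h2 hm h ((hg.isMor_Cc le_rfl hg.mapsX).mapZ hc)) := by
    rw [Sl_mk]
    congr 1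
    exact congrFun e1 (q + 1)
  rw [e2]
  exact (mk_eq_of_coh (coh_of_vT (slT_congr e e0 (sgl (q + m + 1) c)))
    (slC_mem h2 hm h' hc) _).symm

/-- Pullback of a slant. -/
theorem pull_Sl (h2 : (2 : k) ≠ 0) (hm : 1 ≤ m) (h : IsFm A Y F f₀) {A' : Set E₁} {g : E₁ → E}
    (hg : IsMap (tr E₁) (tr E) A' A g) {G : E₁ × (Fin m → ℝ) → E'} {g₀ : E₁ → E'}
    (h' : IsFm A' Y G g₀) (e : ∀ x ∈ A', ∀ v ∈ Jc m, G (x, v) = F (g x, v))
    (e0 : ∀ x ∈ A', g₀ x = f₀ (g x)) (q : ℕ) (x : Ha (tr E') (on k) Y (q + m)) :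
    pull (on k) hg q (Sl h2 hm h q x) = Sl h2 hm h' q x := by
  obtain ⟨c, hc, rfl⟩ := H.exists_mk x
  have e1 : pT g (slT m F f₀ (sgl (q + m + 1) c)) =
      slT m (F ∘ Prod.map g id) (f₀ ∘ g) (sgl (q + m + 1) c) := pT_slT _ _ _ _
  have e2 : pull (on k) hg q (Sl h2 hm h q (H.mk c hc)) =
      H.mk (slT m (F ∘ Prod.map g id) (f₀ ∘ g) (sgl (q + m + 1) c) (q + 1))
        (by
          rw [← e1]
          exact (hg.isMor_Cc le_rfl hg.mapsX).mapZ (slC_mem h2 hm h hc)) := by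
    rw [Sl_mk, pull_mk]
    congr 1
    exact congrFun e1 (q + 1)
  rw [e2]
  exact (mk_eq_of_coh (coh_of_vT (slT_congr e e0 (sgl (q + m + 1) c)))
    (slC_mem h2 hm h' hc) _).symm

/-- **Homotopy invariance.** -/
theorem Sl_htpy (h2 : (2 : k) ≠ 0) (hm : 1 ≤ m) {F' : E × (Fin m → ℝ) → E'} {f₀' : E → E'}
    (h : IsFm A Y F f₀) (h' : IsFm A Y F' f₀') {D : (E × (Fin m → ℝ)) × ℝ → E'}
    {D₀ : E × ℝ → E'} (hD : UM ((A ×ˢ Jc m) ×ˢ Icc (0 : ℝ) 1) Y D)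
    (hb : ∀ x ∈ A, ∀ v ∈ bJ m, ∀ s ∈ Icc (0 : ℝ) 1, D ((x, v), s) = D₀ (x, s))
    (e0 : ∀ x ∈ A, ∀ v ∈ Jc m, D ((x, v), 0) = F (x, v))
    (e1 : ∀ x ∈ A, ∀ v ∈ Jc m, D ((x, v), 1) = F' (x, v))
    (q : ℕ) : (Sl h2 hm h q : Ha (tr E') (on k) Y (q + m) →ₗ[k] Ha (tr E) (on k) A q) =
      Sl h2 hm h' q := by
  have hz : (fun _ : Fin m => (0 : ℝ)) ∈ bJ m :=
    ⟨fun _ => ⟨le_rfl, zero_le_one⟩, ⟨0, hm⟩, Or.inl rfl⟩
  refine Sl_eq h2 hm h h' (fun C hC => ?_) q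
  have g1 := slT_htpy h2 hm hD hb hC
  refine (coh_of_vT (slT_congr (fun x hx v hv => (e0 x hx v hv).symm) (fun x hx => ?_) C)).trans
    (g1.symm.trans (coh_of_vT (slT_congr (fun x hx v hv => e1 x hx v hv) (fun x hx => ?_) C)))
  · change f₀ x = D₀ (x, 0)
    rw [← hb x hx _ hz 0 ⟨le_rfl, zero_le_one⟩, e0 x hx _ (bJ_sub m hz),
      h.out x hx _ zero_mem_Bg (zero_out hm)]
  · change D₀ (x, 1) = f₀' x
    rw [← hb x hx _ hz 1 ⟨zero_le_one, le_rfl⟩, e1 x hx _ (bJ_sub m hz),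
      h'.out x hx _ zero_mem_Bg (zero_out hm)]

/-- **Commutation of two slants.** -/
theorem Sl_comm (h2 : (2 : k) ≠ 0) (hm : 1 ≤ m) {A' : Set E'} {A₁ : Set E₁} {Z : Set E''}
    {L : E × (Fin m → ℝ) → E'} {l₀ : E → E'} {R : E' × (Fin m → ℝ) → E''} {r₀ : E' → E''}
    {R' : E × (Fin m → ℝ) → E₁} {r₀' : E → E₁} {L' : E₁ × (Fin m → ℝ) → E''} {l₀' : E₁ → E''}
    (hL : IsFm A A' L l₀) (hR : IsFm A' Z R r₀) (hR' : IsFm A A₁ R' r₀')
    (hL' : IsFm A₁ Z L' l₀')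
    (hc : ∀ x ∈ A, ∀ v ∈ Bg m, ∀ w ∈ Bg m, L' (R' (x, w), v) = R (L (x, v), w)) (q : ℕ)
    (x : Ha (tr E'') (on k) Z (q + m + m)) :
    Sl h2 hm hR' q (Sl h2 hm hL' (q + m) x) =
      (-1 : k) ^ m • Sl h2 hm hL q (Sl h2 hm hR (q + m) x) := by
  obtain ⟨c, hc', rfl⟩ := H.exists_mk x
  have g1 := slT_comm h2 hm hL hR hR' hL' hc (vT_dT_sgl hc')
  have e1 : slT m R' r₀' (slT m L' l₀' (sgl (q + m + m + 1) c)) (q + 1) =
      slC m R' r₀' q (slC m L' l₀' (q + m) c) := by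
    rw [slT_sgl']
    rfl
  have e2 : ((-1 : k) ^ m • slT m L l₀ (slT m R r₀ (sgl (q + m + m + 1) c))) (q + 1) =
      (-1 : k) ^ m • slC m L l₀ q (slC m R r₀ (q + m) c) := by
    rw [Pi.smul_apply, slT_sgl']
    rfl
  exact mk_eq_of_coh' g1 e1 e2 (slC_mem h2 hm hR' (slC_mem h2 hm hL' hc'))
    (Submodule.smul_mem _ _ (slC_mem h2 hm hL (slC_mem h2 hm hR hc')))

/-- **The slant by the diagonal.** -/
theorem Sl_diag (h2 : (2 : k) ≠ 0) (hm : 1 ≤ m) {F : (E × (Fin m → ℝ)) × (Fin m → ℝ) → E'}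
    {F₁ F₂ G : E × (Fin m → ℝ) → E'} {f₀ : E → E'} (hG : IsFm A Y G f₀)
    (hGF : ∀ x ∈ A, ∀ v ∈ Jc m, G (x, v) = F ((x, v), v))
    (hF : UM ((A ×ˢ Bg m) ×ˢ Bg m) Y F) (h₁ : IsFm A Y F₁ f₀) (h₂ : IsFm A Y F₂ f₀)
    (o1 : ∀ x ∈ A, ∀ v ∈ Bg m, ∀ w ∈ Bg m, Out v → F ((x, v), w) = F₂ (x, w))
    (o2 : ∀ x ∈ A, ∀ v ∈ Bg m, ∀ w ∈ Bg m, Out w → F ((x, v), w) = F₁ (x, v)) (q : ℕ)
    (x : Ha (tr E') (on k) Y (q + m)) :
    Sl h2 hm hG q x = Sl h2 hm h₁ q x + Sl h2 hm h₂ q x := by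
  obtain ⟨c, hc, rfl⟩ := H.exists_mk x
  have g1 := (coh_of_vT (slT_congr (F' := fun p => F (p, p.2)) (f₀ := f₀) hGF (fun _ _ => rfl)
    (sgl (q + m + 1) c))).trans (slT_diag h2 hm hF h₁ h₂ o1 o2 (vT_dT_sgl hc))
  exact mk_eq_of_coh g1 (q := q) (slC_mem h2 hm hG hc)
    (Submodule.add_mem _ (slC_mem h2 hm h₁ hc) (slC_mem h2 hm h₂ hc))

/-- **Families which are constant in the parameter have no slant.** -/
theorem Sl_const (h2 : (2 : k) ≠ 0) (hm : 1 ≤ m) (h : IsFm A Y F f₀)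
    (hF : ∀ x ∈ A, ∀ v ∈ Jc m, F (x, v) = f₀ x) (q : ℕ) (x : Ha (tr E') (on k) Y (q + m)) :
    Sl h2 hm h q x = 0 := by
  obtain ⟨c, hc, rfl⟩ := H.exists_mk x
  have g1 : VT A (slT m F f₀ (sgl (q + m + 1) c)) := by
    rw [slT_apply]
    refine vT_KV m fun n => ⟨1, one_pos, fun x hx => ?_⟩
    change sgl (q + m + 1) c n (F ∘ x) - sgl (q + m + 1) c n ((fun p => f₀ p.1) ∘ x) = 0
    have e1 : F ∘ x = (fun p => f₀ p.1) ∘ x := funext fun i => hF _ (hx.1 i).1 _ (hx.1 i).2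
    rw [e1, sub_self]
  rw [Sl_mk, H.mk_eq_zero]
  exact T_le_Bc _ _ _ ⟨fun i => i.elim, g1 (q + 1)⟩

end Metric

end Vale.Agent.P216.H962
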