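import Vale.Agent.P216.H962.Fin
import Vale.Agent.P216.H388.Spur3
import Vale.Agent.P216.H923B.DLem
import Vale.Agent.P216.H754B.Fl
import Vale.Agent.P216.H754B.Pw
import Vale.Agent.P216.B64.SCS

/-!
# `SignGoal`: the signs of the reversal and the structure constants (P216, block B43)
-/

set_option linter.unusedVariables false

open Set BoundedContinuousFunction

namespace Vale.Agent.P216.H962

open Vale.Agent.P216.AS Vale.Agent.P216.H901 Vale.Agent.P216.PS Vale.Agent.P216.MV337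
open Vale.Agent.P216.H456 Vale.Agent.P216.H83 Vale.Agent.P216.H754B Vale.Agent.P216.B64

section Th

variable {k : Type} [Field k] {E E' M : Type} [MetricSpace E] [MetricSpace E'] [MetricSpace M]
  {ev : E → M} {X : ℝ → Set E} {Om : ℝ → Set E'} {c : ℝ} {m : ℕ} {B C' B0 B' : ℝ}

/-- **The structure constants in terms of slants.** -/
theorem cf_eq_Sl (h2 : (2 : k) ≠ 0) (hm1 : 1 ≤ m) (T : Triv (m + 1) ev X Om c)
    {b : Based m (fun q => PMa k Om T.Om_mono q) B C' B0} (F : Free (T.wang h2) b B')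
    {D : ℝ → (Fin (m + 1) → ℝ) → (Fin (m + 1) → ℝ)} {bb : Fin (m + 1) → ℝ}
    (hC : H923B.Col m D bb) {r s t : ℝ} (hr : 0 < r) (hs : 0 < s) (ht : 0 < t) (h₁ : r + c ≤ s)
    (h₂ : s + c ≤ t) {G : E' × (Fin m → ℝ) → E'} {g₀ : E' → E'} (hG : IsFm (Om r) (Om t) G g₀)
    (e : ∀ x ∈ Om r, ∀ v ∈ Jc m, G (x, v) =
      T.tm.f s (T.tp.g r (enc (m + 1) x (D 1 (topv v)))))
    (e0 : ∀ x ∈ Om r, g₀ x = T.tm.f s (T.tp.g r (enc (m + 1) x bb))) (j : ℕ) :
    (Sl h2 hm1 hG (m * j) ((b.om (j + 1)).z t ht : Ha (tr E') (on k) (Om t) (m * j + m)) :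
      Ha (tr E') (on k) (Om r) (m * j)) = F.cf (j + 1) • (b.om j).z r hr := by
  have hP := T.isMap_clutch hr hs h₁ h₂
  have h3 := F.th j r s t hr hs ht h₁ h₂
  have h4 := T.th_formula h2 (m * j) hr hs h₁ h₂ hP ((b.om (j + 1)).z t ht)
  have h5 := hC.dlem_symm h2 hm1 hP (m * j) ((b.om (j + 1)).z t ht)
  have h6 := LinearMap.congr_fun (Sl_congr (k := k) h2 hm1 hG (hC.isFm hP) e e0 (m * j))
    ((b.om (j + 1)).z t ht)
  exact h6.trans (h5.symm.trans (h4.symm.trans h3))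

end Th

/-- **The signs.** -/
theorem signGoal : SignGoal := by
  intro m hm3 M _ _ ρ hρ hU he x₀ C ℓ Tp Tm hp hm k _ h2 B C' B0 B' hB hC' b F
  have hm1 : 1 ≤ m := by omega
  have hl := hp.nonneg
  have hsc : SimplyConnectedSpace M := by
    obtain ⟨e⟩ := he
    have := simplyConnected_sph (m + 1) (by omega)
    exact simplyConnected_of_homeo e
  obtain ⟨D, bb, hcol⟩ := H923B.exists_col m
  have hC : Coll m D bb := ⟨hcol.b_mem, hcol.cont, hcol.maps, hcol.zero, hcol.one⟩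
  -- the constants of the path fibration
  obtain ⟨B'', hF⟩ := free_of_triv (by omega : 2 ≤ m) (ptrivOf C hp hm) B C' B0 hB hC'
  obtain ⟨FL⟩ := hF k h2 b
  have hlam : ∀ j t (ht : 0 < t) (ht' : 0 < t + 2 * ℓ), opL h2 hm1 hp hm hC (m * j) t ht
      (omS b j (t + 2 * ℓ) ht') = FL.cf (j + 1) • omO b j t ht := by
    intro j t ht ht'
    refine cf_eq_Sl h2 hm1 (ptrivOf C hp hm) FL hcol ht (by linarith : 0 < t + ℓ) ht' le_rfl
      (by linarith) (isFm_L hp hm hC ht.le) ?_ ?_ j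
    · intro g hg v hv
      have h1 := hC.maps 1 ⟨zero_le_one, le_rfl⟩ (topv_mem v)
      change sL Tp Tm ℓ (C.ψ (D 1 (topv v))) g = lcut Tm ℓ (lback Tp ℓ
        (C.ψ (dec2 (m + 1) (enc (m + 1) g (D 1 (topv v)))),
          dec1 (m + 1) (enc (m + 1) g (D 1 (topv v)))))
      rw [dec1_enc, dec2_enc, lcut_lback_xx hp hm ht.le h1 hg]
    · intro g hg
      change sL Tp Tm ℓ (C.ψ bb) g = lcut Tm ℓ (lback Tp ℓ
        (C.ψ (dec2 (m + 1) (enc (m + 1) g bb)), dec1 (m + 1) (enc (m + 1) g bb)))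
      rw [dec1_enc, dec2_enc, lcut_lback_xx hp hm ht.le hC.b_mem hg]
  -- the waiting homotopies
  obtain ⟨K, hK, hw⟩ := H388.exists_wait_pull' hρ hU hm1 hp hm hC
  have hs := signs h2 hm1 hp hm hC hB b FL.cf hlam hK (fun t ht q z => (hw k t ht.le q z).1)
    (fun t ht q z => (hw k t ht.le q z).2)
    (fun t ht i z => H388.pull_c0_opT h2 hm1 hp hm hC 0 t ht i z)
    (fun j => pw_cf_ne hm1 C hp hm h2 FL j)
  refine ⟨hs.1, fun hodd j hj hev => ?_⟩
  obtain ⟨i, rfl⟩ : ∃ i, j = i + 1 := ⟨j - 1, by omega⟩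
  obtain ⟨T, hT⟩ := exists_om_ne b i
  have ht : 0 < max T 1 := lt_max_of_lt_right one_pos
  set t := max T 1 with ht_def
  have h3 : 0 < t + 2 * ℓ + 2 * ℓ := by linarith
  have e1 := hs.2 i t ht h3
  have e2 := cf_eq_Sl h2 hm1 (trivOf C hp hm) F hcol ht (by linarith : 0 < t + 2 * ℓ) h3 le_rfl
      le_rfl (isFm_T hm1 hp hm hC ht.le) ?_ ?_ i
  · have e3 : ((1 + (-1 : k) ^ (1 + m * i)) * FL.cf (i + 1)) • (b.om i).z t ht =
      F.cf (i + 1) • (b.om i).z t ht := e1.symm.trans e2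
    have hne : (b.om i).z t ht ≠ 0 := hT t ht (le_max_left _ _)
    have e4 : (1 + (-1 : k) ^ (1 + m * i)) * FL.cf (i + 1) = F.cf (i + 1) := by
      rw [← sub_eq_zero, ← sub_smul, smul_eq_zero, sub_eq_zero] at e3
      exact e3.resolve_right hne
    rw [← e4]
    refine mul_ne_zero ?_ (pw_cf_ne hm1 C hp hm h2 FL i)
    have h5 : Even (1 + m * i) := by
      have hi : Odd i := Nat.odd_iff.2 (by omega)
      have hm' : Odd m := Nat.odd_iff.2 hodd
      exact odd_one.add_odd (hm'.mul hi)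
    rw [h5.neg_one_pow]
    norm_num
    exact h2
  · intro g hg v hv
    have h1 := hC.maps 1 ⟨zero_le_one, le_rfl⟩ (topv_mem v)
    change sR Tp Tm ℓ (t + 2 * ℓ) (C.ψ (D 1 (topv v))) (sL Tp Tm ℓ (C.ψ (D 1 (topv v))) g) =
      cut Tm ℓ (t + 2 * ℓ) (back Tp ℓ t
        (C.ψ (dec2 (m + 1) (enc (m + 1) g (D 1 (topv v)))),
          dec1 (m + 1) (enc (m + 1) g (D 1 (topv v)))))
    rw [dec1_enc, dec2_enc, cut_back_xx hp hm ht.le h1 hg]
  · intro g hg
    change sR Tp Tm ℓ (t + 2 * ℓ) (C.ψ bb) (sL Tp Tm ℓ (C.ψ bb) g) =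
      cut Tm ℓ (t + 2 * ℓ) (back Tp ℓ t
        (C.ψ (dec2 (m + 1) (enc (m + 1) g bb)), dec1 (m + 1) (enc (m + 1) g bb)))
    rw [dec1_enc, dec2_enc, cut_back_xx hp hm ht.le hC.b_mem hg]

end Vale.Agent.P216.H962
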