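import Vale.Agent.P216.H754B.Gen

/-!
# Signs: the algebra (P216, block B43)

`SD b a`: the two slants `L`, `R` of degree `-m`, the reversal `θ`, the operator `T` on the classes
`om j`. `SD.sign`: `θ om_j = (-1)^(j + m j (j-1) / 2) om_j`; `SD.T_eq`: the value of `T`.
-/

namespace Vale.Agent.P216.H962

open Vale.Agent.P216.H901 Vale.Agent.P216.H754B

variable {k : Type} [Field k]

/-- The data for the signs. -/
structure SD {m : ℕ} {G : ℕ → PM k} {B C B0 : ℝ} (b : Based m G B C B0) (a : ℝ) where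
  ha : 0 ≤ a
  θ : ∀ q, PMOp (G q)
  θθ : ∀ q t ht z, (θ q).r t ht ((θ q).r t ht z) = z
  L : ∀ q t, 0 < t → (G (q + m)).V (t + a) →ₗ[k] (G q).V t
  R : ∀ q t, 0 < t → (G (q + m)).V (t + a) →ₗ[k] (G q).V t
  RL : ∀ q t ht ht' z, (θ q).r t ht (L q t ht ((θ (q + m)).r (t + a) ht' z)) = R q t ht z
  comm : ∀ q t ht ht' z, R q t ht (L (q + m) (t + a) ht' z) =
    (-1 : k) ^ m • L q t ht (R (q + m) (t + a) ht' z)
  lam : ℕ → k
  lam_ne : ∀ j, lam (j + 1) ≠ 0
  L_om : ∀ j t ht ht', L (m * j) t ht ((b.om (j + 1)).z (t + a) ht') =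
    lam (j + 1) • (b.om j).z t ht
  θ0 : ∀ t ht, (θ (m * 0)).r t ht ((b.om 0).z t ht) = (b.om 0).z t ht
  T : ∀ q t, 0 < t → (G (q + m)).V (t + a + a) →ₗ[k] (G q).V t
  T_om : ∀ j t ht h1 h2, T (m * j) t ht ((b.om (j + 1)).z (t + a + a) h2) =
    L (m * j) t ht ((b.om (j + 1)).z (t + a) h1) + R (m * j) t ht ((b.om (j + 1)).z (t + a) h1)
  T1 : ∀ t ht h2, T (m * 0) t ht ((b.om (0 + 1)).z (t + a + a) h2) = 0

/-- The sign of the reversal on `om j`. -/
def sg (k : Type) [Field k] (m j : ℕ) : k := (-1 : k) ^ (j + m * (j * (j - 1) / 2))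

theorem tri_add_two (j : ℕ) : (j + 2) * (j + 2 - 1) / 2 = j * (j - 1) / 2 + (2 * j + 1) := by
  have h : (j + 2) * (j + 2 - 1) = j * (j - 1) + 2 * (2 * j + 1) := by
    cases j with
    | zero => rfl
    | succ j =>
      simp only [Nat.add_sub_cancel]
      have : j + 1 + 2 - 1 = j + 2 := by omega
      rw [this]
      ring
  rw [h, Nat.add_mul_div_left _ _ (by norm_num)]

theorem sg_zero (m : ℕ) : sg k m 0 = 1 := by simp [sg]

theorem sg_one (m : ℕ) : sg k m 1 = -1 := by simp [sg]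

theorem sg_add_two (m j : ℕ) : sg k m (j + 2) = (-1 : k) ^ m * sg k m j := by
  have e : j + 2 + m * (j * (j - 1) / 2 + (2 * j + 1)) =
      (m + (j + m * (j * (j - 1) / 2))) + 2 * (1 + m * j) := by ring
  unfold sg
  rw [tri_add_two, e, pow_add _ (m + (j + m * (j * (j - 1) / 2))), pow_mul, neg_one_sq, one_pow,
    mul_one, pow_add]

theorem sg_mul_self (m j : ℕ) : sg k m j * sg k m j = 1 := by
  unfold sg
  rw [← mul_pow, neg_one_mul, neg_neg, one_pow]

/-- the signs of two consecutive classes -/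
theorem sg_mul_succ (m j : ℕ) : sg k m (j + 1) * sg k m j = (-1 : k) ^ (1 + m * j) := by
  induction j with
  | zero => simp [sg]
  | succ j ih =>
    rw [sg_add_two, mul_assoc, mul_comm (sg k m j), ih, ← pow_add]
    congr 1
    ring

namespace SD

variable {m : ℕ} {G : ℕ → PM k} {B C B0 : ℝ} {b : Based m G B C B0} {a : ℝ} (S : SD b a)

include S

theorem exists_sign (hB : 0 ≤ B) (j : ℕ) :
    ∃ e : k, ∀ t ht, (S.θ (m * j)).r t ht ((b.om j).z t ht) = e • (b.om j).z t ht := by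
  obtain ⟨e, he⟩ := (b.line j).fam hB ((S.θ (m * j)).fam (b.om j))
  exact ⟨e, he⟩

/-- **The signs.** -/
theorem main (hB : 0 ≤ B) :
    (∀ j t ht, (S.θ (m * j)).r t ht ((b.om j).z t ht) = sg k m j • (b.om j).z t ht) ∧
    ∀ j t ht h2, S.T (m * j) t ht ((b.om (j + 1)).z (t + a + a) h2) =
      ((1 + (-1 : k) ^ (1 + m * j)) * S.lam (j + 1)) • (b.om j).z t ht := by
  choose e he using S.exists_sign hB
  have ha := S.ha
  -- nonzero classes
  have hne : ∀ j, ∃ t, ∃ ht : 0 < t, (b.om j).z t ht ≠ 0 := fun j => by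
    obtain ⟨T, hT⟩ := exists_om_ne b j
    exact ⟨max T 1, lt_max_of_lt_right one_pos, hT _ _ (le_max_left _ _)⟩
  have canc : ∀ j (x y : k), (∀ t ht, x • (b.om j).z t ht = y • (b.om j).z t ht) → x = y := by
    intro j x y h
    obtain ⟨t, ht, hn⟩ := hne j
    have h1 := h t ht
    rw [← sub_eq_zero, ← sub_smul, smul_eq_zero, sub_eq_zero] at h1
    exact h1.resolve_right hn
  have hee : ∀ j, e j * e j = 1 := by
    intro j
    refine canc j _ _ fun t ht => ?_
    have h1 := S.θθ (m * j) t ht ((b.om j).z t ht)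
    rw [he, map_smul, he, smul_smul] at h1
    rw [h1, one_smul]
  have he0 : e 0 = 1 := by
    refine canc 0 _ _ fun t ht => ?_
    rw [one_smul, ← he 0 t ht]
    exact S.θ0 t ht
  have hR : ∀ j t ht ht', S.R (m * j) t ht ((b.om (j + 1)).z (t + a) ht') =
      (e (j + 1) * e j * S.lam (j + 1)) • (b.om j).z t ht := by
    intro j t ht ht'
    rw [← S.RL (m * j) t ht ht']
    have h1 : (S.θ (m * j + m)).r (t + a) ht' ((b.om (j + 1)).z (t + a) ht') =
      e (j + 1) • (b.om (j + 1)).z (t + a) ht' := he (j + 1) (t + a) ht'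
    rw [h1, map_smul, map_smul, S.L_om, map_smul, he, smul_smul, smul_smul]
    congr 1
    ring
  have hstep : ∀ j, e (j + 2) = (-1 : k) ^ m * e j := by
    intro j
    have h1 : e (j + 1) * e j * (S.lam (j + 2) * S.lam (j + 1)) =
        (-1 : k) ^ m * (e (j + 2) * e (j + 1) * (S.lam (j + 2) * S.lam (j + 1))) := by
      refine canc j _ _ fun t ht => ?_
      have h1 : 0 < t + a := by linarith
      have h2 : 0 < t + a + a := by linarith
      have h3 := S.comm (m * j) t ht h1 ((b.om (j + 2)).z (t + a + a) h2)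
      have h4 : S.L (m * j + m) (t + a) h1 ((b.om (j + 2)).z (t + a + a) h2) =
        S.lam (j + 2) • (b.om (j + 1)).z (t + a) h1 := S.L_om (j + 1) (t + a) h1 h2
      have h5 : S.R (m * j + m) (t + a) h1 ((b.om (j + 2)).z (t + a + a) h2) =
        (e (j + 2) * e (j + 1) * S.lam (j + 2)) • (b.om (j + 1)).z (t + a) h1 :=
        hR (j + 1) (t + a) h1 h2
      have h6 : S.L (m * j) t ht ((b.om (j + 1)).z (t + a) h1) =
        S.lam (j + 1) • (b.om j).z t ht := S.L_om j t ht h1
      have h7 : S.R (m * j) t ht ((b.om (j + 1)).z (t + a) h1) =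
        (e (j + 1) * e j * S.lam (j + 1)) • (b.om j).z t ht := hR j t ht h1
      have h8 : S.R (m * j) t ht (S.lam (j + 2) • (b.om (j + 1)).z (t + a) h1) =
        S.lam (j + 2) • S.R (m * j) t ht ((b.om (j + 1)).z (t + a) h1) := map_smul _ _ _
      have h9 : S.L (m * j) t ht ((e (j + 2) * e (j + 1) * S.lam (j + 2)) •
          (b.om (j + 1)).z (t + a) h1) =
        (e (j + 2) * e (j + 1) * S.lam (j + 2)) • S.L (m * j) t ht ((b.om (j + 1)).z (t + a) h1) :=
        map_smul _ _ _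
      rw [h4, h5, h8, h9, h6, h7, smul_smul, smul_smul, smul_smul] at h3
      convert h3 using 2 <;> ring
    have h2 : S.lam (j + 2) * S.lam (j + 1) ≠ 0 := mul_ne_zero (S.lam_ne (j + 1)) (S.lam_ne j)
    have h3 : e (j + 1) * e j = (-1 : k) ^ m * (e (j + 2) * e (j + 1)) := by
      have : e (j + 1) * e j * (S.lam (j + 2) * S.lam (j + 1)) =
          (-1 : k) ^ m * (e (j + 2) * e (j + 1)) * (S.lam (j + 2) * S.lam (j + 1)) := by
        rw [h1]; ring
      exact mul_right_cancel₀ h2 this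
    have h4 : ((-1 : k) ^ m) * (-1) ^ m = 1 := by
      rw [← mul_pow, neg_one_mul, neg_neg, one_pow]
    calc e (j + 2) = ((-1 : k) ^ m * (-1) ^ m) * (e (j + 1) * e (j + 1)) * e (j + 2) := by
          rw [h4, hee, one_mul, one_mul]
      _ = (-1 : k) ^ m * e (j + 1) * ((-1 : k) ^ m * (e (j + 2) * e (j + 1))) := by ring
      _ = (-1 : k) ^ m * e (j + 1) * (e (j + 1) * e j) := by rw [← h3]
      _ = (-1 : k) ^ m * (e (j + 1) * e (j + 1)) * e j := by ring
      _ = (-1 : k) ^ m * e j := by rw [hee, mul_one]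
  have hT : ∀ j t ht h2, S.T (m * j) t ht ((b.om (j + 1)).z (t + a + a) h2) =
      ((1 + e (j + 1) * e j) * S.lam (j + 1)) • (b.om j).z t ht := by
    intro j t ht h2
    rw [S.T_om j t ht (by linarith) h2, S.L_om, hR, ← add_smul]
    congr 1
    ring
  have he1 : e 1 = -1 := by
    have h1 : (1 + e 1 * e 0) * S.lam 1 = 0 := by
      refine canc 0 _ _ fun t ht => ?_
      rw [zero_smul, ← S.T1 t ht (by linarith)]
      exact (hT 0 t ht (by linarith)).symm
    rcases mul_eq_zero.1 h1 with h | h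
    · rw [he0, mul_one] at h
      linear_combination h
    · exact absurd h (S.lam_ne 0)
  have hsg : ∀ j, e j = sg k m j ∧ e (j + 1) = sg k m (j + 1) := by
    intro j
    induction j with
    | zero => exact ⟨by rw [he0, sg_zero], by rw [zero_add, he1, sg_one]⟩
    | succ j ih => exact ⟨ih.2, by rw [hstep, ih.1, sg_add_two]⟩
  refine ⟨fun j t ht => by rw [he, (hsg j).1], fun j t ht h2 => ?_⟩
  rw [hT, (hsg j).2, (hsg j).1, sg_mul_succ]

end SD

end Vale.Agent.P216.H962
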