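import Vale.Agent.P216.H962.Sl

/-!
# The slant by the diagonal of two families (P216, block B43)
-/

open Set

namespace Vale.Agent.P216.H962

open Vale.Agent.P216.DV965 Vale.Agent.P216.AS

variable {k : Type} [Field k] {E E' : Type} {m : ℕ}

/-- Translation of the coordinate `0`. -/
def tr0 (hm : 1 ≤ m) (a : ℝ) (v : Fin m → ℝ) : Fin m → ℝ :=
  fun i => if i = ⟨0, hm⟩ then v i + a else v i

theorem tr0_zero (hm : 1 ≤ m) (v : Fin m → ℝ) : tr0 hm 0 v = v := by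
  funext i
  simp [tr0]

theorem tr0_same (hm : 1 ≤ m) (a : ℝ) (v : Fin m → ℝ) : tr0 hm a v ⟨0, hm⟩ = v ⟨0, hm⟩ + a := by
  simp [tr0]

theorem tr0_mem (hm : 1 ≤ m) {a : ℝ} (ha : |a| ≤ 1 / 4) {v : Fin m → ℝ} (hv : v ∈ Jc m) :
    tr0 hm a v ∈ Bg m := by
  intro i
  obtain ⟨h1, h2⟩ := abs_le.1 ha
  have h3 := hv i
  unfold tr0
  split_ifs
  · exact ⟨by linarith [h3.1], by linarith [h3.2]⟩
  · exact ⟨by linarith [h3.1], by linarith [h3.2]⟩

theorem tr0_out (hm : 1 ≤ m) {a : ℝ} (ha : |a| ≤ 1 / 4) {v : Fin m → ℝ} (hv : v ∈ bJ m) :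
    Out (tr0 hm a v) := by
  obtain ⟨-, i, hi⟩ := hv
  obtain ⟨h1, h2⟩ := abs_le.1 ha
  refine ⟨i, ?_⟩
  unfold tr0
  split_ifs
  · rcases hi with hi | hi <;> rw [hi]
    · rw [abs_of_nonpos (by linarith)]; linarith
    · rw [abs_of_nonneg (by linarith)]; linarith
  · rcases hi with hi | hi <;> rw [hi] <;> norm_num

theorem dist_tr0 (hm : 1 ≤ m) (a b : ℝ) (v w : Fin m → ℝ) :
    dist (tr0 hm a v) (tr0 hm b w) ≤ dist v w + |a - b| := by
  rw [dist_pi_le_iff (by positivity)]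
  intro i
  have h1 := dist_le_pi_dist v w i
  rw [Real.dist_eq] at h1 ⊢
  unfold tr0
  split_ifs
  · have : v i + a - (w i + b) = (v i - w i) + (a - b) := by ring
    rw [this]
    exact (abs_add_le _ _).trans (add_le_add h1 le_rfl)
  · linarith [abs_nonneg (a - b)]

section Metric

variable [PseudoMetricSpace E] [PseudoMetricSpace E'] {A : Set E} {Y : Set E'}

theorem uM_tr0 (hm : 1 ≤ m) {σ : ℝ} (hσ : |σ| ≤ 1 / 4) :
    UM ((A ×ˢ Jc m) ×ˢ Icc (0 : ℝ) 1) (Bg m)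
      fun p : (E × (Fin m → ℝ)) × ℝ => tr0 hm (p.2 * σ) p.1.2 where
  maps := fun p hp => by
    refine tr0_mem hm ?_ hp.1.2
    rw [abs_mul, abs_of_nonneg hp.2.1]
    exact (mul_le_of_le_one_left (abs_nonneg _) hp.2.2).trans hσ
  uc := fun ε hε => by
    refine ⟨ε / 2, by positivity, fun p _ q _ hpq => ?_⟩
    simp only [Prod.dist_eq, max_lt_iff] at hpq
    have h1 : |p.2 * σ - q.2 * σ| ≤ ε / 2 := by
      rw [← sub_mul, abs_mul]
      have := hpq.2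
      rw [Real.dist_eq] at this
      nlinarith [abs_nonneg (p.2 - q.2), abs_nonneg σ]
    linarith [dist_tr0 hm (p.2 * σ) (q.2 * σ) p.1.2 q.1.2, hpq.1.2]

theorem abs_mul_le_quarter {s σ : ℝ} (hs : s ∈ Icc (0 : ℝ) 1) (hσ : |σ| ≤ 1 / 4) :
    |s * σ| ≤ 1 / 4 := by
  rw [abs_mul, abs_of_nonneg hs.1]
  exact (mul_le_of_le_one_left (abs_nonneg _) hs.2).trans hσ

/-- Translation of a family. -/
theorem slT_tr (h2 : (2 : k) ≠ 0) (hm : 1 ≤ m) {F : E × (Fin m → ℝ) → E'} {f₀ : E → E'}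
    (hF : IsFm A Y F f₀) {σ : ℝ} (hσ : |σ| ≤ 1 / 4) {C : TC k E'} (hC : VT Y (dT C)) :
    Coh A (slT m (fun p => F (p.1, tr0 hm σ p.2)) f₀ C) (slT m F f₀ C) := by
  have f3 : UM ((A ×ˢ Jc m) ×ˢ Icc (0 : ℝ) 1) A fun p : (E × (Fin m → ℝ)) × ℝ => p.1.1 := by
    refine UM.of_dist_le (fun p hp => hp.1.1) fun p _ q _ => ?_
    simp only [Prod.dist_eq]
    exact (le_max_left _ _).trans (le_max_left _ _)
  have := slT_htpy h2 hm (D := fun p : (E × (Fin m → ℝ)) × ℝ => F (p.1.1, tr0 hm (p.2 * σ) p.1.2))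
    (D₀ := fun p => f₀ p.1) (hF.um.comp (f3.pair (uM_tr0 hm hσ)))
    (fun x hx v hv s hs => hF.out x hx _ (tr0_mem hm (abs_mul_le_quarter hs hσ) (bJ_sub m hv))
      (tr0_out hm (abs_mul_le_quarter hs hσ) hv)) hC
  have e1 : ((fun p : (E × (Fin m → ℝ)) × ℝ => F (p.1.1, tr0 hm (p.2 * σ) p.1.2)) ∘ jj 1) =
      fun p => F (p.1, tr0 hm σ p.2) := by
    funext p
    simp [jj]
  have e0 : ((fun p : (E × (Fin m → ℝ)) × ℝ => F (p.1.1, tr0 hm (p.2 * σ) p.1.2)) ∘ jj 0) = F := by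
    funext p
    simp [jj, tr0_zero]
  rw [e1, e0] at this
  exact this

/-- **The slant by the diagonal.** -/
theorem slT_diag (h2 : (2 : k) ≠ 0) (hm : 1 ≤ m) {F : (E × (Fin m → ℝ)) × (Fin m → ℝ) → E'}
    {F₁ F₂ : E × (Fin m → ℝ) → E'} {f₀ : E → E'}
    (hF : UM ((A ×ˢ Bg m) ×ˢ Bg m) Y F) (h₁ : IsFm A Y F₁ f₀) (h₂ : IsFm A Y F₂ f₀)
    (o1 : ∀ x ∈ A, ∀ v ∈ Bg m, ∀ w ∈ Bg m, Out v → F ((x, v), w) = F₂ (x, w))
    (o2 : ∀ x ∈ A, ∀ v ∈ Bg m, ∀ w ∈ Bg m, Out w → F ((x, v), w) = F₁ (x, v))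
    {C : TC k E'} (hC : VT Y (dT C)) :
    Coh A (slT m (fun p => F (p, p.2)) f₀ C) (slT m F₁ f₀ C + slT m F₂ f₀ C) := by
  have f3 : UM ((A ×ˢ Jc m) ×ˢ Icc (0 : ℝ) 1) A fun p : (E × (Fin m → ℝ)) × ℝ => p.1.1 := by
    refine UM.of_dist_le (fun p hp => hp.1.1) fun p _ q _ => ?_
    simp only [Prod.dist_eq]
    exact (le_max_left _ _).trans (le_max_left _ _)
  have hp : |(1 / 4 : ℝ)| ≤ 1 / 4 := by norm_num
  have hn : |(-(1 / 4) : ℝ)| ≤ 1 / 4 := by norm_num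
  have g1 := slT_htpy h2 hm (A := A) (Y := Y)
    (D := fun p : (E × (Fin m → ℝ)) × ℝ =>
      F ((p.1.1, tr0 hm (p.2 * (1 / 4)) p.1.2), tr0 hm (p.2 * (-(1 / 4))) p.1.2))
    (D₀ := fun p => f₀ p.1) (hF.comp ((f3.pair (uM_tr0 hm hp)).pair (uM_tr0 hm hn)))
    (fun x hx v hv s hs => by
      have a1 := tr0_mem hm (abs_mul_le_quarter hs hp) (bJ_sub m hv)
      have a2 := tr0_mem hm (abs_mul_le_quarter hs hn) (bJ_sub m hv)
      have b1 := tr0_out hm (abs_mul_le_quarter hs hp) hv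
      have b2 := tr0_out hm (abs_mul_le_quarter hs hn) hv
      change F ((x, tr0 hm (s * (1 / 4)) v), tr0 hm (s * (-(1 / 4))) v) = f₀ x
      rw [o1 x hx _ a1 _ a2 b1, h₂.out x hx _ a2 b2]) hC
  have e1 : ((fun p : (E × (Fin m → ℝ)) × ℝ => F ((p.1.1, tr0 hm (p.2 * (1 / 4)) p.1.2),
      tr0 hm (p.2 * (-(1 / 4))) p.1.2)) ∘ jj 1) =
      fun p => F ((p.1, tr0 hm (1 / 4) p.2), tr0 hm (-(1 / 4)) p.2) := by
    funext p
    simp [jj]
  have e0 : ((fun p : (E × (Fin m → ℝ)) × ℝ => F ((p.1.1, tr0 hm (p.2 * (1 / 4)) p.1.2),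
      tr0 hm (p.2 * (-(1 / 4))) p.1.2)) ∘ jj 0) = fun p => F (p, p.2) := by
    funext p
    simp [jj, tr0_zero]
  rw [e1, e0] at g1
  refine g1.symm.trans (Coh.trans ?_ ((slT_tr h2 hm h₁ hp hC).add (slT_tr h2 hm h₂ hn hC)))
  refine coh_of_vT ?_
  rw [slT_apply, slT_apply, slT_apply, ← map_add, ← map_sub]
  refine vT_KV m fun n => ⟨1 / 8, by norm_num, fun x hx => ?_⟩
  set α : Fin n → Fin m → ℝ := fun i => tr0 hm (1 / 4) (x i).2 with hα
  set β : Fin n → Fin m → ℝ := fun i => tr0 hm (-(1 / 4)) (x i).2 with hβ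
  have ma : ∀ i, α i ∈ Bg m := fun i => tr0_mem hm hp (hx.1 i).2
  have mb : ∀ i, β i ∈ Bg m := fun i => tr0_mem hm hn (hx.1 i).2
  have mx : ∀ i, (x i).1 ∈ A := fun i => (hx.1 i).1
  have key : (∀ i, Out (β i)) ∨ ∀ i, Out (α i) := by
    by_cases h : ∀ i, (x i).2 ⟨0, hm⟩ ≤ 5 / 8
    · refine Or.inl fun i => ⟨⟨0, hm⟩, ?_⟩
      rw [hβ]
      simp only [tr0_same]
      have := h i
      rw [abs_of_nonpos (by linarith)]
      linarith
    · push Not at h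
      obtain ⟨i₀, h⟩ := h
      refine Or.inr fun i => ⟨⟨0, hm⟩, ?_⟩
      rw [hα]
      simp only [tr0_same]
      have h3 := hx.2 i₀ i
      simp only [Prod.dist_eq, max_lt_iff] at h3
      have h4 := (dist_le_pi_dist (x i₀).2 (x i).2 ⟨0, hm⟩).trans_lt h3.2
      rw [Real.dist_eq, abs_lt] at h4
      rw [abs_of_nonneg (by linarith)]
      linarith
  change C n (fun i => F (((x i).1, α i), β i)) - C n (fun i => f₀ (x i).1) -
    (C n (fun i => F₁ ((x i).1, α i)) - C n (fun i => f₀ (x i).1) +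
      (C n (fun i => F₂ ((x i).1, β i)) - C n (fun i => f₀ (x i).1))) = 0
  rcases key with ho | ho
  · rw [show (fun i => F (((x i).1, α i), β i)) = fun i => F₁ ((x i).1, α i) from
        funext fun i => o2 _ (mx i) _ (ma i) _ (mb i) (ho i),
      show (fun i => F₂ ((x i).1, β i)) = fun i => f₀ (x i).1 from
        funext fun i => h₂.out _ (mx i) _ (mb i) (ho i)]
    ring
  · rw [show (fun i => F (((x i).1, α i), β i)) = fun i => F₂ ((x i).1, β i) from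
        funext fun i => o1 _ (mx i) _ (ma i) _ (mb i) (ho i),
      show (fun i => F₁ ((x i).1, α i)) = fun i => f₀ (x i).1 from
        funext fun i => h₁.out _ (mx i) _ (ma i) (ho i)]
    ring

end Metric

end Vale.Agent.P216.H962
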