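import Vale.Agent.P216.H962.Kop

/-!
# Integration over the cube, all degrees at once (P216, block B43)

`TC k E` = cochains of all arities. `KV m : TC k (E × (Fin m → ℝ)) → TC k E` = integration over
the `m` coordinates (over `[0, 1]^m`), last coordinate first.
-/

open Set Matrix

namespace Vale.Agent.P216.H962

open Vale.Agent.P216.DV965 Vale.Agent.P216.AS

/-- Cochains of all arities. -/
abbrev TC (k E : Type) : Type := ∀ n : ℕ, (Fin n → E) → k

variable {k : Type} [Field k] {E E' E'' : Type}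

/-- The coboundary. -/
def dT : TC k E →ₗ[k] TC k E where
  toFun C := fun n => match n with
    | 0 => 0
    | n + 1 => P265.AS.d (C n)
  map_add' C C' := by
    funext n
    cases n with
    | zero => simp
    | succ n => exact P265.AS.d_add _ _
  map_smul' a C := by
    funext n
    cases n with
    | zero => simp
    | succ n => exact P265.AS.d_smul _ _

theorem dT_zero (C : TC k E) : dT C 0 = 0 := rfl

theorem dT_succ (C : TC k E) (n : ℕ) : dT C (n + 1) = P265.AS.d (C n) := rfl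

/-- The pullback. -/
def pT (f : E → E') : TC k E' →ₗ[k] TC k E where
  toFun C := fun _ => P265.AS.pb f (C _)
  map_add' _ _ := rfl
  map_smul' _ _ := rfl

theorem pT_apply (f : E → E') (C : TC k E') (n : ℕ) (x : Fin n → E) : pT f C n x = C n (f ∘ x) :=
  rfl

theorem pT_pT (f : E → E') (g : E' → E'') (C : TC k E'') : pT f (pT g C) = pT (g ∘ f) C := rfl

theorem pT_id (C : TC k E) : pT id C = C := rfl

theorem dT_pT (f : E → E') (C : TC k E') : dT (pT f C) = pT f (dT C) := by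
  funext n
  cases n with
  | zero => rfl
  | succ n => exact P265.AS.d_pb f (C n)

/-- Integration over the last coordinate. -/
noncomputable def KT : TC k (E × ℝ) →ₗ[k] TC k E where
  toFun C := fun n => K1 k E n (C (n + 1))
  map_add' C C' := by
    funext n
    exact map_add _ _ _
  map_smul' a C := by
    funext n
    exact (K1 k E n).map_smul a (C (n + 1))

theorem KT_apply (C : TC k (E × ℝ)) (n : ℕ) : KT C n = K1 k E n (C (n + 1)) := rfl

theorem KT_zero (C : TC k (E × ℝ)) : KT C 0 = 0 := K1_zero _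

theorem dT_KT (h2 : (2 : k) ≠ 0) (C : TC k (E × ℝ)) :
    dT (KT C) + KT (dT C) = pT (jj 1) C - pT (jj 0) C := by
  funext n
  cases n with
  | zero =>
    funext x
    have h1 : (dT (KT C) + KT (dT C)) 0 x = 0 := by
      rw [Pi.add_apply, dT_zero, KT_zero]; simp
    rw [h1]
    change 0 = C 0 (jj 1 ∘ x) - C 0 (jj 0 ∘ x)
    rw [Subsingleton.elim (jj (1 : ℝ) ∘ x) (jj 0 ∘ x), sub_self]
  | succ n => exact d_K1 h2 (C (n + 1))

theorem KT_pT (f : E → E') (C : TC k (E' × ℝ)) : KT (pT (Prod.map f id) C) = pT f (KT C) := by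
  funext n
  exact K1_pb f (C (n + 1))

theorem KT_refl (C : TC k (E × ℝ)) :
    KT (pT (fun p : E × ℝ => (p.1, 1 - p.2)) C) = -KT C := by
  funext n
  exact K1_refl (C (n + 1))

/-- The tuples with entries in `A`. -/
abbrev In (A : Set E) {n : ℕ} (x : Fin n → E) : Prop := ∀ i, x i ∈ A

theorem KT_congr {A : Set E} {C C' : TC k (E × ℝ)}
    (h : ∀ n (y : Fin n → E × ℝ), In (A ×ˢ Icc (0 : ℝ) 1) y → C n y = C' n y) (n : ℕ)
    (x : Fin n → E) (hx : In A x) : KT C n x = KT C' n x :=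
  K1_congr fun y hy => h _ y fun i => ⟨by obtain ⟨⟨j, hj⟩, -⟩ := hy i; rw [hj]; exact hx j, (hy i).2⟩

/-! ### The iterated operator -/

/-- Appending a coordinate. -/
def snE {m : ℕ} (p : (E × (Fin m → ℝ)) × ℝ) : E × (Fin (m + 1) → ℝ) :=
  (p.1.1, Fin.snoc p.1.2 p.2)

/-- No coordinate. -/
def nlE (x : E) : E × (Fin 0 → ℝ) := (x, fun i => i.elim0)

/-- **Integration over the cube.** -/
noncomputable def KV : (m : ℕ) → (TC k (E × (Fin m → ℝ)) →ₗ[k] TC k E)
  | 0 => pT nlE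
  | m + 1 => KV m ∘ₗ KT ∘ₗ pT snE

theorem KV_zero (C : TC k (E × (Fin 0 → ℝ))) : KV 0 C = pT nlE C := rfl

theorem KV_succ (m : ℕ) (C : TC k (E × (Fin (m + 1) → ℝ))) :
    KV (m + 1) C = KV m (KT (pT snE C)) := rfl

/-- Degree `0` is killed. -/
theorem KV_deg0 : ∀ (m : ℕ) (_ : 1 ≤ m) (C : TC k (E × (Fin m → ℝ))), KV m C 0 = 0
  | 1, _, C => by
    funext x
    rw [KV_succ, KV_zero, pT_apply, KT_zero]
    rfl
  | m + 2, _, C => KV_deg0 (m + 1) (by omega) _

theorem KV_pT (m : ℕ) (f : E → E') (C : TC k (E' × (Fin m → ℝ))) :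
    KV m (pT (Prod.map f id) C) = pT f (KV m C) := by
  induction m with
  | zero => rfl
  | succ m ih =>
    rw [KV_succ, KV_succ, ← ih, ← KT_pT]
    rfl

/-- The reflection of all the coordinates. -/
theorem KV_refl (m : ℕ) (C : TC k (E × (Fin m → ℝ))) :
    KV m (pT (fun p => (p.1, fun i => 1 - p.2 i)) C) = (-1 : k) ^ m • KV m C := by
  induction m with
  | zero =>
    rw [pow_zero, one_smul, KV_zero, KV_zero, pT_pT]
    congr 2
    funext x
    simp only [Function.comp, nlE]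
    congr 1
    funext i
    exact i.elim0
  | succ m ih =>
    have e : pT snE (pT (fun p : E × (Fin (m + 1) → ℝ) => (p.1, fun i => 1 - p.2 i)) C) =
        pT (Prod.map (fun p : E × (Fin m → ℝ) => (p.1, fun i => 1 - p.2 i)) id)
          (pT (fun p : (E × (Fin m → ℝ)) × ℝ => (p.1, 1 - p.2)) (pT snE C)) := by
      rw [pT_pT, pT_pT, pT_pT]
      congr 2
      funext p
      simp only [Function.comp, snE, Prod.map, id]
      congr 1
      funext i
      refine Fin.lastCases ?_ (fun i => ?_) i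
      · simp
      · simp
    rw [KV_succ, KV_succ, e, KT_pT, ih, KT_refl, map_neg, pow_succ, mul_neg_one, neg_smul,
      smul_neg]

/-- The unit cube. -/
def Jc (m : ℕ) : Set (Fin m → ℝ) := {v | ∀ i, v i ∈ Icc (0 : ℝ) 1}

/-- The boundary of the unit cube. -/
def bJ (m : ℕ) : Set (Fin m → ℝ) := {v | v ∈ Jc m ∧ ∃ i, v i = 0 ∨ v i = 1}

theorem bJ_sub (m : ℕ) : bJ m ⊆ Jc m := fun _ h => h.1

theorem bJ_zero : bJ 0 = ∅ := by
  ext v
  simp only [mem_empty_iff_false, iff_false]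
  rintro ⟨-, i, -⟩
  exact i.elim0

theorem snE_mem {m : ℕ} {A : Set E} {p : (E × (Fin m → ℝ)) × ℝ} :
    snE p ∈ A ×ˢ Jc (m + 1) ↔ p ∈ (A ×ˢ Jc m) ×ˢ Icc (0 : ℝ) 1 := by
  constructor
  · rintro ⟨h1, h2⟩
    refine ⟨⟨h1, fun i => ?_⟩, ?_⟩
    · have := h2 i.castSucc
      simpa [snE] using this
    · have := h2 (Fin.last m)
      simpa [snE] using this
  · rintro ⟨⟨h1, h2⟩, h3⟩
    refine ⟨h1, fun i => ?_⟩
    refine Fin.lastCases ?_ (fun i => ?_) i
    · simpa [snE] using h3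
    · simpa [snE] using h2 i

theorem snE_mem_bJ {m : ℕ} {A : Set E} {p : (E × (Fin m → ℝ)) × ℝ} :
    snE p ∈ A ×ˢ bJ (m + 1) ↔ p ∈ (A ×ˢ bJ m) ×ˢ Icc (0 : ℝ) 1 ∪ (A ×ˢ Jc m) ×ˢ {0, 1} := by
  constructor
  · rintro ⟨h1, h2, i, hi⟩
    have h3 := snE_mem.1 (show snE p ∈ A ×ˢ Jc (m + 1) from ⟨h1, h2⟩)
    revert hi
    refine Fin.lastCases ?_ (fun i => ?_) i
    · intro hi
      right
      refine ⟨h3.1, ?_⟩
      simpa [snE] using hi
    · intro hi
      left
      refine ⟨⟨h1, h3.1.2, i, ?_⟩, h3.2⟩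
      simpa [snE] using hi
  · rintro (⟨⟨h1, h2, i, hi⟩, h3⟩ | ⟨h1, h3⟩)
    · refine ⟨h1, (snE_mem.2 (show p ∈ (A ×ˢ Jc m) ×ˢ Icc (0 : ℝ) 1 from
        ⟨⟨h1, h2⟩, h3⟩)).2, i.castSucc, ?_⟩
      simpa [snE] using hi
    · have h4 : p.2 ∈ Icc (0 : ℝ) 1 := by
        rcases h3 with h3 | h3 <;> rw [h3]
        · exact ⟨le_rfl, zero_le_one⟩
        · exact ⟨zero_le_one, le_rfl⟩
      refine ⟨h1.1, (snE_mem.2 ⟨h1, h4⟩).2, Fin.last m, ?_⟩
      simpa [snE] using h3

theorem KV_congr (m : ℕ) {A : Set E} {C C' : TC k (E × (Fin m → ℝ))}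
    (h : ∀ n (y : Fin n → E × (Fin m → ℝ)), In (A ×ˢ Jc m) y → C n y = C' n y) (n : ℕ)
    (x : Fin n → E) (hx : In A x) : KV m C n x = KV m C' n x := by
  induction m generalizing n with
  | zero => exact h _ _ fun i => ⟨hx i, fun j => j.elim0⟩
  | succ m ih =>
    rw [KV_succ, KV_succ]
    refine ih (fun n y hy => KT_congr (A := A ×ˢ Jc m) (fun n z hz => ?_) n y hy) n x hx
    exact h _ _ fun i => snE_mem.2 (hz i)

section Metric

variable [PseudoMetricSpace E] [PseudoMetricSpace E'] [PseudoMetricSpace E'']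

/-- Vanishing on the small tuples of `A`, in each degree. -/
def VT (A : Set E) (C : TC k E) : Prop := ∀ n, Van A (C n)

theorem VT.mono {A B : Set E} {C : TC k E} (h : VT B C) (hAB : A ⊆ B) : VT A C :=
  fun n => (h n).mono hAB

theorem vT_zero {A : Set E} : VT A (0 : TC k E) := fun _ => van_zero

theorem VT.add {A : Set E} {C C' : TC k E} (h : VT A C) (h' : VT A C') : VT A (C + C') :=
  fun n => (h n).add (h' n)

theorem VT.smul {A : Set E} {C : TC k E} (a : k) (h : VT A C) : VT A (a • C) :=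
  fun n => (h n).smul a

theorem VT.neg {A : Set E} {C : TC k E} (h : VT A C) : VT A (-C) := fun n => (h n).neg

theorem VT.sub {A : Set E} {C C' : TC k E} (h : VT A C) (h' : VT A C') : VT A (C - C') :=
  fun n => (h n).sub (h' n)

theorem vT_dT {A : Set E} {C : TC k E} (h : VT A C) : VT A (dT C) := by
  intro n
  cases n with
  | zero => exact van_zero
  | succ n => exact (h n).d

/-- `f` is uniformly continuous on `A` and maps `A` to `B`. -/
structure UM (A : Set E) (B : Set E') (f : E → E') : Prop where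
  maps : MapsTo f A B
  uc : ∀ ε > 0, ∃ δ > 0, ∀ x ∈ A, ∀ y ∈ A, dist x y < δ → dist (f x) (f y) < ε

theorem UM.comp {A : Set E} {B : Set E'} {C : Set E''} {f : E → E'} {g : E' → E''}
    (hg : UM B C g) (hf : UM A B f) : UM A C (g ∘ f) where
  maps := hg.maps.comp hf.maps
  uc := fun ε hε => by
    obtain ⟨δ, hδ, h⟩ := hg.uc ε hε
    obtain ⟨η, hη, h'⟩ := hf.uc δ hδ
    exact ⟨η, hη, fun x hx y hy hxy => h _ (hf.maps hx) _ (hf.maps hy) (h' x hx y hy hxy)⟩

theorem UM.mono {A A' : Set E} {B : Set E'} {f : E → E'} (h : UM A B f) (hA : A' ⊆ A) :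
    UM A' B f where
  maps := h.maps.mono_left hA
  uc := fun ε hε => by
    obtain ⟨δ, hδ, h'⟩ := h.uc ε hε
    exact ⟨δ, hδ, fun x hx y hy => h' x (hA hx) y (hA hy)⟩

theorem UM.mono_right {A : Set E} {B B' : Set E'} {f : E → E'} (h : UM A B f) (hB : B ⊆ B') :
    UM A B' f where
  maps := h.maps.mono_right hB
  uc := h.uc

theorem UM.restr {A A' : Set E} {B B' : Set E'} {f : E → E'} (h : UM A B f) (hA : A' ⊆ A)
    (hm : MapsTo f A' B') : UM A' B' f where
  maps := hm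
  uc := fun ε hε => by
    obtain ⟨δ, hδ, h'⟩ := h.uc ε hε
    exact ⟨δ, hδ, fun x hx y hy => h' x (hA hx) y (hA hy)⟩

theorem UM.of_compact {A : Set E} {B : Set E'} {f : E → E'} (hA : IsCompact A)
    (hf : ContinuousOn f A) (hm : MapsTo f A B) : UM A B f where
  maps := hm
  uc := fun ε hε => by
    have h := hA.uniformContinuousOn_of_continuous hf
    rw [Metric.uniformContinuousOn_iff] at h
    obtain ⟨δ, hδ, h⟩ := h ε hε
    exact ⟨δ, hδ, fun x hx y hy hxy => h x hx y hy hxy⟩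

theorem UM.of_dist_le {A : Set E} {B : Set E'} {f : E → E'} (hm : MapsTo f A B)
    (h : ∀ x ∈ A, ∀ y ∈ A, dist (f x) (f y) ≤ dist x y) : UM A B f where
  maps := hm
  uc := fun ε hε => ⟨ε, hε, fun x hx y hy hxy => (h x hx y hy).trans_lt hxy⟩

theorem UM.sm {A : Set E} {B : Set E'} {f : E → E'} (h : UM A B f) {ε : ℝ} (hε : 0 < ε) :
    ∃ δ > 0, ∀ {n : ℕ} (x : Fin n → E), Sm A δ x → Sm B ε (f ∘ x) := by
  obtain ⟨δ, hδ, h'⟩ := h.uc ε hε
  exact ⟨δ, hδ, fun x hx => ⟨fun i => h.maps (hx.1 i),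
    fun i j => h' _ (hx.1 i) _ (hx.1 j) (hx.2 i j)⟩⟩

theorem vT_pT {A : Set E} {B : Set E'} {f : E → E'} (hf : UM A B f) {C : TC k E'} (h : VT B C) :
    VT A (pT f C) := by
  intro n
  obtain ⟨ε, hε, h1⟩ := h n
  obtain ⟨δ, hδ, h2⟩ := hf.sm hε
  exact ⟨δ, hδ, fun x hx => h1 _ (h2 x hx)⟩

theorem vT_KT {A : Set E} {C : TC k (E × ℝ)} (h : VT (A ×ˢ Icc (0 : ℝ) 1) C) : VT A (KT C) :=
  fun n => K1_van (h (n + 1))

theorem uM_snE {m : ℕ} {A : Set E} {S : Set ((E × (Fin m → ℝ)) × ℝ)} {T : Set (Fin (m + 1) → ℝ)}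
    (h : ∀ p ∈ S, snE p ∈ A ×ˢ T) : UM S (A ×ˢ T) snE := by
  refine UM.of_dist_le h fun p _ q _ => ?_
  rw [Prod.dist_eq, max_le_iff]
  refine ⟨(le_max_left _ _).trans ((Prod.dist_eq (x := p.1) (y := q.1)).ge.trans
    ((le_max_left _ _).trans (Prod.dist_eq (x := p) (y := q)).ge)), ?_⟩
  rw [dist_pi_le_iff dist_nonneg]
  intro i
  refine Fin.lastCases ?_ (fun i => ?_) i
  · simp only [snE, Fin.snoc_last]
    exact (le_max_right _ _).trans (Prod.dist_eq (x := p) (y := q)).ge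
  · simp only [snE, Fin.snoc_castSucc]
    exact (dist_le_pi_dist p.1.2 q.1.2 i).trans ((le_max_right _ _).trans
      ((Prod.dist_eq (x := p.1) (y := q.1)).ge.trans
      ((le_max_left _ _).trans (Prod.dist_eq (x := p) (y := q)).ge)))

theorem vT_KV (m : ℕ) {A : Set E} {C : TC k (E × (Fin m → ℝ))} (h : VT (A ×ˢ Jc m) C) :
    VT A (KV m C) := by
  induction m with
  | zero =>
    change VT A (pT nlE C)
    have h1 : UM A (A ×ˢ Jc 0) (nlE : E → E × (Fin 0 → ℝ)) := by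
      refine UM.of_dist_le (fun x hx => ⟨hx, fun i => i.elim0⟩) ?_
      intro x _ y _
      rw [Prod.dist_eq]
      refine max_le le_rfl ?_
      rw [dist_pi_le_iff dist_nonneg]
      exact fun i => i.elim0
    exact vT_pT h1 h
  | succ m ih =>
    exact ih (vT_KT (vT_pT (uM_snE fun p hp => snE_mem.2 hp) h))

/-- `jj r` as a map. -/
theorem uM_jj {A : Set E} {T : Set ℝ} {r : ℝ} (hr : r ∈ T) : UM A (A ×ˢ T) (jj r) := by
  refine UM.of_dist_le (fun x hx => ⟨hx, hr⟩) fun x _ y _ => ?_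
  rw [Prod.dist_eq]
  refine max_le le_rfl ?_
  change dist r r ≤ _
  rw [dist_self]
  exact dist_nonneg

/-- **The chain property.** -/
theorem dT_KV (h2 : (2 : k) ≠ 0) (m : ℕ) {A : Set E} {C : TC k (E × (Fin m → ℝ))}
    (h : VT (A ×ˢ bJ m) C) : VT A (dT (KV m C) - (-1 : k) ^ m • KV m (dT C)) := by
  induction m with
  | zero =>
    rw [pow_zero, one_smul, KV_zero, KV_zero, dT_pT, sub_self]
    exact vT_zero
  | succ m ih =>
    set C' : TC k ((E × (Fin m → ℝ)) × ℝ) := pT snE C with hC'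
    have hf : ∀ r : ℝ, (r = 0 ∨ r = 1) → VT (A ×ˢ Jc m) (pT (jj r) C') := by
      intro r hr
      refine vT_pT (uM_jj (T := {0, 1}) hr) (vT_pT (B := A ×ˢ bJ (m + 1)) ?_ h)
      exact uM_snE fun p hp => snE_mem_bJ.2 (Or.inr hp)
    have hb : VT (A ×ˢ bJ m) (KT C') :=
      vT_KT (vT_pT (uM_snE fun p hp => snE_mem_bJ.2 (Or.inl hp)) h)
    have e1 := ih hb
    have e2 : dT (KT C') + KT (dT C') = pT (jj 1) C' - pT (jj 0) C' := dT_KT h2 C'
    have e3 : VT A (KV m (pT (jj 1) C' - pT (jj 0) C')) :=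
      vT_KV m ((hf 1 (Or.inr rfl)).sub (hf 0 (Or.inl rfl)))
    have e4 : dT (KV (m + 1) C) - (-1 : k) ^ (m + 1) • KV (m + 1) (dT C) =
        (dT (KV m (KT C')) - (-1 : k) ^ m • KV m (dT (KT C'))) +
          (-1 : k) ^ m • KV m (pT (jj 1) C' - pT (jj 0) C') := by
      rw [← e2, map_add, smul_add, KV_succ, KV_succ, ← dT_pT, ← hC', pow_succ, mul_neg_one,
        neg_smul, sub_neg_eq_add]
      abel
    rw [e4]
    exact e1.add (e3.smul _)

end Metric

end Vale.Agent.P216.H962
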