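import Vale.Agent.P216.H962.KV

/-!
# Exchange of two integrations over the cube (P216, block B43)

`Coh A C C'`: `C` and `C'` differ by a coboundary, on the small tuples of `A`.
`rot`: `KV m (KV m (exchange of e)) ~ (-1)^m KV m (KV m e)` if the cocycle `e` vanishes outside the
cube of radius `1/8` in the first or in the second variable.
-/

open Set

namespace Vale.Agent.P216.H962

open Vale.Agent.P216.DV965 Vale.Agent.P216.AS

variable {k : Type} [Field k] {E E' E'' : Type}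

section Metric

variable [PseudoMetricSpace E] [PseudoMetricSpace E'] [PseudoMetricSpace E'']

/-- Cohomologous on `A`. -/
def Coh (A : Set E) (C C' : TC k E) : Prop := ∃ h : TC k E, h 0 = 0 ∧ VT A (C - C' - dT h)

theorem coh_of_vT {A : Set E} {C C' : TC k E} (h : VT A (C - C')) : Coh A C C' :=
  ⟨0, rfl, by rwa [map_zero, sub_zero]⟩

theorem Coh.refl {A : Set E} (C : TC k E) : Coh A C C := coh_of_vT (by rw [sub_self]; exact vT_zero)

theorem Coh.trans {A : Set E} {C C' C'' : TC k E} (h : Coh A C C') (h' : Coh A C' C'') :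
    Coh A C C'' := by
  obtain ⟨g, hg, h⟩ := h
  obtain ⟨g', hg', h'⟩ := h'
  refine ⟨g + g', by rw [Pi.add_apply, hg, hg', add_zero], ?_⟩
  have := h.add h'
  convert this using 1
  rw [map_add]
  abel

theorem Coh.symm {A : Set E} {C C' : TC k E} (h : Coh A C C') : Coh A C' C := by
  obtain ⟨g, hg, h⟩ := h
  refine ⟨-g, by rw [Pi.neg_apply, hg, neg_zero], ?_⟩
  have := h.neg
  convert this using 1
  rw [map_neg]
  abel

theorem Coh.add {A : Set E} {C C' D D' : TC k E} (h : Coh A C C') (h' : Coh A D D') :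
    Coh A (C + D) (C' + D') := by
  obtain ⟨g, hg, h⟩ := h
  obtain ⟨g', hg', h'⟩ := h'
  refine ⟨g + g', by rw [Pi.add_apply, hg, hg', add_zero], ?_⟩
  have := h.add h'
  convert this using 1
  rw [map_add]
  abel

theorem Coh.smul {A : Set E} {C C' : TC k E} (a : k) (h : Coh A C C') :
    Coh A (a • C) (a • C') := by
  obtain ⟨g, hg, h⟩ := h
  refine ⟨a • g, by rw [Pi.smul_apply, hg, smul_zero], ?_⟩
  have := h.smul a
  convert this using 1
  rw [map_smul, smul_sub, smul_sub]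

theorem Coh.pT {A : Set E} {B : Set E'} {f : E → E'} (hf : UM A B f) {C C' : TC k E'}
    (h : Coh B C C') : Coh A (pT f C) (pT f C') := by
  obtain ⟨g, hg, h⟩ := h
  refine ⟨H962.pT f g, ?_, ?_⟩
  · funext x
    rw [pT_apply, hg]
    rfl
  · have := vT_pT hf h
    rwa [map_sub, map_sub, ← dT_pT] at this

/-- Cohomologous relative to the boundary of the cube. -/
def RCoh (m : ℕ) (A : Set E) (C C' : TC k (E × (Fin m → ℝ))) : Prop :=
  ∃ h : TC k (E × (Fin m → ℝ)), VT (A ×ˢ bJ m) h ∧ VT (A ×ˢ Jc m) (C - C' - dT h)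

theorem kV_dT (h2 : (2 : k) ≠ 0) (m : ℕ) {A : Set E} {h : TC k (E × (Fin m → ℝ))}
    (hb : VT (A ×ˢ bJ m) h) : VT A (KV m (dT h) - dT ((-1 : k) ^ m • KV m h)) := by
  have h1 := (dT_KV h2 m hb).smul (-(-1 : k) ^ m)
  have e : (-(-1 : k) ^ m) • (dT (KV m h) - (-1 : k) ^ m • KV m (dT h)) =
      KV m (dT h) - dT ((-1 : k) ^ m • KV m h) := by
    rw [smul_sub, smul_smul, neg_mul, ← mul_pow, neg_one_mul, neg_neg, one_pow, map_smul, neg_smul,
      neg_smul, one_smul]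
    abel
  rwa [e] at h1

theorem coh_KV (h2 : (2 : k) ≠ 0) {m : ℕ} (hm : 1 ≤ m) {A : Set E}
    {C C' : TC k (E × (Fin m → ℝ))} (h : RCoh m A C C') : Coh A (KV m C) (KV m C') := by
  obtain ⟨g, hg, h⟩ := h
  refine ⟨(-1 : k) ^ m • KV m g, by rw [Pi.smul_apply, KV_deg0 m hm, smul_zero], ?_⟩
  have h1 := (vT_KV m h).add (kV_dT h2 m hg)
  convert h1 using 1
  rw [map_sub, map_sub]
  abel

theorem rcoh_KV (h2 : (2 : k) ≠ 0) {m l : ℕ} {A : Set E}
    {C C' h : TC k ((E × (Fin m → ℝ)) × (Fin l → ℝ))}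
    (hb : VT ((A ×ˢ Jc m) ×ˢ bJ l) h) (hb' : VT ((A ×ˢ bJ m) ×ˢ Jc l) h)
    (hd : VT ((A ×ˢ Jc m) ×ˢ Jc l) (C - C' - dT h)) : RCoh m A (KV l C) (KV l C') := by
  refine ⟨(-1 : k) ^ l • KV l h, (vT_KV l hb').smul _, ?_⟩
  have h1 := (vT_KV l hd).add (kV_dT h2 l hb)
  convert h1 using 1
  rw [map_sub, map_sub]
  abel

/-! ### Uniformly continuous maps -/

theorem UM.pair {A : Set E} {B : Set E'} {C : Set E''} {f : E → E'} {g : E → E''}
    (hf : UM A B f) (hg : UM A C g) : UM A (B ×ˢ C) fun x => (f x, g x) where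
  maps := fun _ hx => ⟨hf.maps hx, hg.maps hx⟩
  uc := fun ε hε => by
    obtain ⟨δ, hδ, h⟩ := hf.uc ε hε
    obtain ⟨δ', hδ', h'⟩ := hg.uc ε hε
    refine ⟨min δ δ', lt_min hδ hδ', fun x hx y hy hxy => ?_⟩
    rw [Prod.dist_eq, max_lt_iff]
    exact ⟨h x hx y hy (hxy.trans_le (min_le_left _ _)),
      h' x hx y hy (hxy.trans_le (min_le_right _ _))⟩

theorem UM.fst' {A : Set E} {S : Set (E × E')} (h : ∀ p ∈ S, p.1 ∈ A) :
    UM S A (Prod.fst : E × E' → E) :=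
  UM.of_dist_le h fun p _ q _ => by rw [Prod.dist_eq]; exact le_max_left _ _

theorem UM.snd' {A : Set E'} {S : Set (E × E')} (h : ∀ p ∈ S, p.2 ∈ A) :
    UM S A (Prod.snd : E × E' → E') :=
  UM.of_dist_le h fun p _ q _ => by rw [Prod.dist_eq]; exact le_max_right _ _

theorem UM.id' {A B : Set E} (h : A ⊆ B) : UM A B (id : E → E) :=
  UM.of_dist_le h fun _ _ _ _ => le_rfl

/-- Uniform continuity only. -/
abbrev UC (A : Set E) (f : E → E') : Prop := UM A univ f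

theorem UM.uc' {A : Set E} {B : Set E'} {f : E → E'} (h : UM A B f) : UC A f :=
  h.mono_right (subset_univ _)

theorem UM.um {A : Set E} {B : Set E'} {f : E → E'} (h : UC A f) (hm : MapsTo f A B) : UM A B f :=
  ⟨hm, h.uc⟩

end Metric

theorem isCompact_Jc (m : ℕ) : IsCompact (Jc m) := by
  have : Jc m = Set.pi univ fun _ : Fin m => Icc (0 : ℝ) 1 := by
    ext v; simp only [Jc, mem_setOf_eq, mem_pi, mem_univ, true_imp_iff]
  rw [this]
  exact isCompact_univ_pi fun _ => isCompact_Icc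

/-- The big cube. -/
def Bg (m : ℕ) : Set (Fin m → ℝ) := {v | ∀ i, v i ∈ Icc (-1 : ℝ) 2}

theorem Jc_sub_Bg (m : ℕ) : Jc m ⊆ Bg m := fun v hv i => ⟨by linarith [(hv i).1],
  by linarith [(hv i).2]⟩

theorem isCompact_Bg (m : ℕ) : IsCompact (Bg m) := by
  have : Bg m = Set.pi univ fun _ : Fin m => Icc (-1 : ℝ) 2 := by
    ext v; simp only [Bg, mem_setOf_eq, mem_pi, mem_univ, true_imp_iff]
  rw [this]
  exact isCompact_univ_pi fun _ => isCompact_Icc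

/-! ### The rotation -/

variable {m : ℕ}

/-- The exchange. -/
def exch (p : (E × (Fin m → ℝ)) × (Fin m → ℝ)) : (E × (Fin m → ℝ)) × (Fin m → ℝ) :=
  ((p.1.1, p.2), p.1.2)

/-- Reflection. -/
def rv (p : E × (Fin m → ℝ)) : E × (Fin m → ℝ) := (p.1, fun i => 1 - p.2 i)

/-- The rotation in the variables. -/
noncomputable def rot2 (p : ((Fin m → ℝ) × (Fin m → ℝ)) × ℝ) : (Fin m → ℝ) × (Fin m → ℝ) :=
  (fun i => 1 / 2 + Real.cos (Real.pi / 2 * p.2) * (p.1.1 i - 1 / 2) +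
      Real.sin (Real.pi / 2 * p.2) * (p.1.2 i - 1 / 2),
    fun i => 1 / 2 - Real.sin (Real.pi / 2 * p.2) * (p.1.1 i - 1 / 2) +
      Real.cos (Real.pi / 2 * p.2) * (p.1.2 i - 1 / 2))

theorem continuous_rot2 : Continuous (rot2 (m := m)) := by
  unfold rot2
  fun_prop

/-- The rotation. -/
noncomputable def rotH (p : ((E × (Fin m → ℝ)) × (Fin m → ℝ)) × ℝ) :
    (E × (Fin m → ℝ)) × (Fin m → ℝ) :=
  ((p.1.1.1, (rot2 ((p.1.1.2, p.1.2), p.2)).1), (rot2 ((p.1.1.2, p.1.2), p.2)).2)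

theorem rotH_zero (p : (E × (Fin m → ℝ)) × (Fin m → ℝ)) : rotH (p, 0) = p := by
  simp [rotH, rot2]

theorem rotH_one (p : (E × (Fin m → ℝ)) × (Fin m → ℝ)) :
    rotH (p, 1) = exch (Prod.map rv id p) := by
  have h1 : ∀ x : ℝ, 1 / 2 - (x - 1 / 2) = 1 - x := fun x => by ring
  simp [rotH, rot2, exch, rv]
  funext i
  linarith

/-- The squared distance to the centre. -/
theorem rot2_sq (p : ((Fin m → ℝ) × (Fin m → ℝ)) × ℝ) (i : Fin m) :
    ((rot2 p).1 i - 1 / 2) ^ 2 + ((rot2 p).2 i - 1 / 2) ^ 2 =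
      (p.1.1 i - 1 / 2) ^ 2 + (p.1.2 i - 1 / 2) ^ 2 := by
  have := Real.sin_sq_add_cos_sq (Real.pi / 2 * p.2)
  simp only [rot2]
  linear_combination ((p.1.1 i - 1 / 2) ^ 2 + (p.1.2 i - 1 / 2) ^ 2) * this

theorem rot2_mem {p : ((Fin m → ℝ) × (Fin m → ℝ)) × ℝ} (h : p.1 ∈ Jc m ×ˢ Jc m) :
    rot2 p ∈ Bg m ×ˢ Bg m := by
  have key : ∀ i, (p.1.1 i - 1 / 2) ^ 2 + (p.1.2 i - 1 / 2) ^ 2 ≤ 1 / 2 := by
    intro i
    have h1 := h.1 i
    have h2 := h.2 i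
    nlinarith [h1.1, h1.2, h2.1, h2.2]
  constructor
  · intro i
    have := rot2_sq p i
    have := key i
    constructor <;> nlinarith [sq_nonneg ((rot2 p).1 i - 1 / 2), sq_nonneg ((rot2 p).2 i - 1 / 2)]
  · intro i
    have := rot2_sq p i
    have := key i
    constructor <;> nlinarith [sq_nonneg ((rot2 p).1 i - 1 / 2), sq_nonneg ((rot2 p).2 i - 1 / 2)]

section Metric

variable [PseudoMetricSpace E] [PseudoMetricSpace E'] [PseudoMetricSpace E'']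

theorem uC_rotH (A : Set E) : UC (((A ×ˢ Jc m) ×ˢ Jc m) ×ˢ Icc (0 : ℝ) 1) (rotH (E := E)) := by
  set S : Set (((E × (Fin m → ℝ)) × (Fin m → ℝ)) × ℝ) := ((A ×ˢ Jc m) ×ˢ Jc m) ×ˢ Icc (0 : ℝ) 1
  have h1 : UM S ((Jc m ×ˢ Jc m) ×ˢ Icc (0 : ℝ) 1) fun p => ((p.1.1.2, p.1.2), p.2) := by
    refine UM.of_dist_le (fun p hp => ⟨⟨hp.1.1.2, hp.1.2⟩, hp.2⟩) fun p _ q _ => ?_
    simp only [Prod.dist_eq]
    exact max_le_max (max_le_max (le_max_right _ _) le_rfl) le_rfl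
  have h2 : UM ((Jc m ×ˢ Jc m) ×ˢ Icc (0 : ℝ) 1) univ (rot2 (m := m)) :=
    UM.of_compact (((isCompact_Jc m).prod (isCompact_Jc m)).prod isCompact_Icc)
      continuous_rot2.continuousOn (mapsTo_univ _ _)
  have h3 := h2.comp h1
  have h4 : UC S fun p => p.1.1.1 := by
    refine UM.of_dist_le (mapsTo_univ _ _) fun p _ q _ => ?_
    simp only [Prod.dist_eq]
    exact ((le_max_left _ _).trans (le_max_left _ _)).trans (le_max_left _ _)
  have h5 : UC S fun p => (rot2 ((p.1.1.2, p.1.2), p.2)).1 :=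
    (UM.fst' (A := univ) fun _ _ => mem_univ _ : UM univ univ
      (Prod.fst : (Fin m → ℝ) × (Fin m → ℝ) → _)).comp h3
  have h6 : UC S fun p => (rot2 ((p.1.1.2, p.1.2), p.2)).2 :=
    (UM.snd' (A := univ) fun _ _ => mem_univ _ : UM univ univ
      (Prod.snd : (Fin m → ℝ) × (Fin m → ℝ) → _)).comp h3
  exact (((h4.pair h5).pair h6).uc')

/-- The points far from the centre in some plane. -/
def Sg (A : Set E) (m : ℕ) : Set ((E × (Fin m → ℝ)) × (Fin m → ℝ)) :=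
  {p | p ∈ (A ×ˢ Bg m) ×ˢ Bg m ∧ ∃ i, 1 / 16 ≤ (p.1.2 i - 1 / 2) ^ 2 + (p.2 i - 1 / 2) ^ 2}

/-- **Exchange.** -/
theorem rot (h2 : (2 : k) ≠ 0) (hm : 1 ≤ m) {A : Set E}
    {e : TC k ((E × (Fin m → ℝ)) × (Fin m → ℝ))}
    (hd : VT ((A ×ˢ Bg m) ×ˢ Bg m) (dT e)) (hv : VT (Sg A m) e) :
    Coh A (KV m (KV m (pT exch e))) ((-1 : k) ^ m • KV m (KV m e)) := by
  set h := KT (pT rotH e) with hh
  have e0 : pT (jj 0) (pT rotH e) = e := by
    rw [pT_pT]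
    have : (rotH ∘ jj 0 : (E × (Fin m → ℝ)) × (Fin m → ℝ) → _) = id := by
      funext p
      exact rotH_zero p
    rw [this, pT_id]
  have e1 : pT (jj 1) (pT rotH e) = pT (Prod.map rv id) (pT exch e) := by
    rw [pT_pT, pT_pT]
    congr 2
    funext p
    exact rotH_one p
  have e2 : dT h + KT (pT rotH (dT e)) = pT (Prod.map rv id) (pT exch e) - e := by
    rw [← e1, ← dT_pT]
    conv_rhs => rw [← e0]
    rw [e0]
    have := dT_KT h2 (pT rotH e)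
    rwa [e0] at this
  have f1 : UM (((A ×ˢ Jc m) ×ˢ Jc m) ×ˢ Icc (0 : ℝ) 1) ((A ×ˢ Bg m) ×ˢ Bg m) (rotH (E := E)) := by
    refine (uC_rotH A).um fun p hp => ?_
    have := rot2_mem (p := ((p.1.1.2, p.1.2), p.2)) ⟨hp.1.1.2, hp.1.2⟩
    exact ⟨⟨hp.1.1.1, this.1⟩, this.2⟩
  have f2 : ∀ S : Set ((E × (Fin m → ℝ)) × (Fin m → ℝ)), S ⊆ (A ×ˢ Jc m) ×ˢ Jc m →
      (∀ p ∈ S, ∃ i, p.1.2 i = 0 ∨ p.1.2 i = 1 ∨ p.2 i = 0 ∨ p.2 i = 1) →
      UM (S ×ˢ Icc (0 : ℝ) 1) (Sg A m) (rotH (E := E)) := by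
    intro S hS hi
    refine ((uC_rotH A).mono (prod_mono hS le_rfl)).um fun p hp => ?_
    refine ⟨f1.maps ⟨hS hp.1, hp.2⟩, ?_⟩
    obtain ⟨i, hi⟩ := hi _ hp.1
    refine ⟨i, ?_⟩
    have := rot2_sq ((p.1.1.2, p.1.2), p.2) i
    simp only at this
    change 1 / 16 ≤ ((rot2 ((p.1.1.2, p.1.2), p.2)).1 i - 1 / 2) ^ 2 +
      ((rot2 ((p.1.1.2, p.1.2), p.2)).2 i - 1 / 2) ^ 2
    rw [this]
    rcases hi with hi | hi | hi | hi <;> rw [hi] <;>
      nlinarith [sq_nonneg (p.1.1.2 i - 1 / 2), sq_nonneg (p.1.2 i - 1 / 2)]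
  have hb : VT ((A ×ˢ Jc m) ×ˢ bJ m) h := by
    refine vT_KT (vT_pT (f2 _ (prod_mono le_rfl (bJ_sub m)) ?_) hv)
    rintro p ⟨-, -, i, hi⟩
    exact ⟨i, by tauto⟩
  have hb' : VT ((A ×ˢ bJ m) ×ˢ Jc m) h := by
    refine vT_KT (vT_pT (f2 _ (prod_mono (prod_mono le_rfl (bJ_sub m)) le_rfl) ?_) hv)
    rintro p ⟨⟨-, -, i, hi⟩, -⟩
    exact ⟨i, by tauto⟩
  have hd' : VT ((A ×ˢ Jc m) ×ˢ Jc m) (pT (Prod.map rv id) (pT exch e) - e - dT h) := by
    rw [← e2, add_sub_cancel_left]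
    exact vT_KT (vT_pT f1 hd)
  have g1 := coh_KV h2 hm (rcoh_KV h2 hb hb' hd')
  rw [KV_pT, show KV m (pT rv (KV m (pT exch e))) = (-1 : k) ^ m • KV m (KV m (pT exch e)) from
    KV_refl m _] at g1
  have g2 := g1.smul ((-1 : k) ^ m)
  rwa [smul_smul, ← mul_pow, neg_one_mul, neg_neg, one_pow, one_smul] at g2

end Metric

end Vale.Agent.P216.H962
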